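import Mathlib

/-!
Mod-2 chains on a vertex type `X`, modelled as polynomials over `ZMod 2`: a monomial is an
unordered simplex (with repetitions allowed), the product is the join, the boundary is the
derivation sending every variable to `1`.
-/

set_option autoImplicit false

namespace Crest.Agent.Mod2Chain

open MvPolynomial

abbrev P (X : Type*) := MvPolynomial X (ZMod 2)

variable {X Y Z : Type*}

theorem add_self (p : P X) : p + p = 0 := CharTwo.add_self_eq_zero p

theorem zmod2_eq_one {a : ZMod 2} (h : a ≠ 0) : a = 1 := by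
  revert a; decide

theorem eq_of_add_eq_zero {p q : P X} (h : p + q = 0) : p = q := by
  have : p + q + q = q := by rw [h, zero_add]
  rwa [add_assoc, add_self, add_zero] at this

/-- the derivation with constant values `g i` on the variables -/
noncomputable def der (g : X → ZMod 2) : P X →ₗ[ZMod 2] P X :=
  (mkDerivation (ZMod 2) (fun i => (C (g i) : P X))).toLinearMap

theorem der_mul (g : X → ZMod 2) (p q : P X) : der g (p * q) = der g p * q + p * der g q := by
  have := (mkDerivation (ZMod 2) (fun i => (C (g i) : P X))).leibniz p q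
  simp only [smul_eq_mul] at this
  show (mkDerivation (ZMod 2) (fun i => (C (g i) : P X))) (p * q) =
    (mkDerivation (ZMod 2) (fun i => (C (g i) : P X))) p * q +
      p * (mkDerivation (ZMod 2) (fun i => (C (g i) : P X))) q
  rw [this]; ring

@[simp] theorem der_X (g : X → ZMod 2) (i : X) : der g (MvPolynomial.X i) = C (g i) :=
  mkDerivation_X (ZMod 2) (fun i => (C (g i) : P X)) i

@[simp] theorem der_C (g : X → ZMod 2) (a : ZMod 2) : der g (C a) = 0 :=
  derivation_C (mkDerivation (ZMod 2) (fun i => (C (g i) : P X))) a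

@[simp] theorem der_one (g : X → ZMod 2) : der g 1 = 0 := by
  rw [← C_1, der_C]

theorem der_monomial (g : X → ZMod 2) (m : X →₀ ℕ) :
    der g (monomial m 1) =
      ∑ i ∈ m.support, monomial (m - Finsupp.single i 1) ((m i : ZMod 2) * g i) := by
  show (mkDerivation (ZMod 2) (fun i => (C (g i) : P X))) (monomial m 1) = _
  rw [mkDerivation_monomial, one_smul, Finsupp.sum]
  refine Finset.sum_congr rfl fun i _ => ?_
  rw [smul_eq_mul, mul_comm, C_mul_monomial, mul_comm]

theorem der_comm (g g' : X → ZMod 2) (p : P X) : der g (der g' p) = der g' (der g p) := by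
  induction p using MvPolynomial.induction_on with
  | C a => simp
  | add p q hp hq => simp [hp, hq]
  | mul_X p i hp =>
    simp only [der_mul, der_X, map_add, der_C, hp]; ring

theorem der_der (g : X → ZMod 2) (p : P X) : der g (der g p) = 0 := by
  induction p using MvPolynomial.induction_on with
  | C a => simp
  | add p q hp hq => simp [hp, hq]
  | mul_X p i hp =>
    simp only [der_mul, der_X, map_add, der_C, hp, zero_mul, mul_zero, zero_add, add_zero]
    exact add_self _

theorem der_add (g g' : X → ZMod 2) (p : P X) : der (g + g') p = der g p + der g' p := by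
  induction p using MvPolynomial.induction_on with
  | C a => simp
  | add p q hp hq => simp only [map_add, hp, hq]; ring
  | mul_X p i hp =>
    simp only [der_mul, der_X, hp, Pi.add_apply, map_add]; ring

theorem rename_der (f : X → Y) (g : Y → ZMod 2) (p : P X) :
    rename f (der (g ∘ f) p) = der g (rename f p) := by
  induction p using MvPolynomial.induction_on with
  | C a => simp
  | add p q hp hq => simp only [map_add, hp, hq]
  | mul_X p i hp =>
    simp only [der_mul, der_X, map_add, map_mul, hp, rename_X, rename_C, Function.comp]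

/-- the boundary operator -/
noncomputable def bd : P X →ₗ[ZMod 2] P X := der (fun _ => 1)

theorem bd_mul (p q : P X) : bd (p * q) = bd p * q + p * bd q := der_mul _ p q

@[simp] theorem bd_X (i : X) : bd (MvPolynomial.X i : P X) = 1 := by simp [bd]

@[simp] theorem bd_C (a : ZMod 2) : bd (C a : P X) = 0 := der_C _ a

@[simp] theorem bd_one : bd (1 : P X) = 0 := der_one _

@[simp] theorem bd_bd (p : P X) : bd (bd p) = 0 := der_der _ p

theorem bd_rename (f : X → Y) (p : P X) : bd (rename f p) = rename f (bd p) :=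
  (rename_der f (fun _ => 1) p).symm

theorem bd_der (g : X → ZMod 2) (p : P X) : bd (der g p) = der g (bd p) := der_comm _ _ p

theorem bd_X_mul (i : X) (p : P X) : bd (MvPolynomial.X i * p) = p + MvPolynomial.X i * bd p := by
  rw [bd_mul, bd_X, one_mul]

/-- polynomials all of whose monomials satisfy `T` -/
def Sup (T : (X →₀ ℕ) → Prop) : Submodule (ZMod 2) (P X) where
  carrier := {p | ∀ m, coeff m p ≠ 0 → T m}
  zero_mem' := by intro m h; simp at h
  add_mem' := by
    intro p q hp hq m h
    rw [coeff_add] at h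
    by_cases h1 : coeff m p = 0
    · rw [h1, zero_add] at h; exact hq m h
    · exact hp m h1
  smul_mem' := by
    intro c p hp m h
    rw [coeff_smul, smul_eq_mul] at h
    exact hp m (right_ne_zero_of_mul h)

theorem mem_Sup {T : (X →₀ ℕ) → Prop} {p : P X} : p ∈ Sup T ↔ ∀ m, coeff m p ≠ 0 → T m := Iff.rfl

theorem monomial_mem_Sup {T : (X →₀ ℕ) → Prop} {m : X →₀ ℕ} (h : T m) (a : ZMod 2) :
    monomial m a ∈ Sup T := by
  classical
  intro m' h'
  rw [coeff_monomial] at h'
  split_ifs at h' with h1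
  · exact h1 ▸ h
  · exact absurd rfl h'

theorem Sup.mono {T T' : (X →₀ ℕ) → Prop} (h : ∀ m, T m → T' m) {p : P X} (hp : p ∈ Sup T) :
    p ∈ Sup T' := fun m hm => h m (hp m hm)

theorem Sup.induction {T : (X →₀ ℕ) → Prop} {motive : P X → Prop} (h0 : motive 0)
    (hadd : ∀ p q, motive p → motive q → motive (p + q))
    (hm : ∀ m, T m → motive (monomial m 1)) {p : P X} (hp : p ∈ Sup T) : motive p := by
  rw [p.as_sum]
  refine Finset.sum_induction _ motive hadd h0 fun m hm' => ?_
  rw [mem_support_iff] at hm'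
  rw [zmod2_eq_one hm']
  exact hm m (hp m hm')

theorem Sup.map_mem {M : Type*} [AddCommGroup M] [Module (ZMod 2) M] {T : (X →₀ ℕ) → Prop}
    (L : P X →ₗ[ZMod 2] M) (B : Submodule (ZMod 2) M) (h : ∀ m, T m → L (monomial m 1) ∈ B)
    {p : P X} (hp : p ∈ Sup T) : L p ∈ B := by
  refine Sup.induction (motive := fun p => L p ∈ B) (by simp) ?_ h hp
  intro p q hp hq
  rw [map_add]; exact B.add_mem hp hq

theorem Sup.map_eq {M : Type*} [AddCommGroup M] [Module (ZMod 2) M] {T : (X →₀ ℕ) → Prop}
    (L L' : P X →ₗ[ZMod 2] M) (h : ∀ m, T m → L (monomial m 1) = L' (monomial m 1))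
    {p : P X} (hp : p ∈ Sup T) : L p = L' p := by
  refine Sup.induction (motive := fun p => L p = L' p) (by simp) ?_ h hp
  intro p q hp hq
  rw [map_add, map_add, hp, hq]

theorem Sup.mul {T₁ T₂ T : (X →₀ ℕ) → Prop} (h : ∀ a b, T₁ a → T₂ b → T (a + b)) {p q : P X}
    (hp : p ∈ Sup T₁) (hq : q ∈ Sup T₂) : p * q ∈ Sup T := by
  refine Sup.induction (motive := fun p => p * q ∈ Sup T) (by simp) ?_ ?_ hp
  · intro p p' h1 h2; rw [add_mul]; exact Submodule.add_mem _ h1 h2
  · intro a ha
    refine Sup.induction (motive := fun q => monomial a 1 * q ∈ Sup T) (by simp) ?_ ?_ hq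
    · intro q q' h1 h2; rw [mul_add]; exact Submodule.add_mem _ h1 h2
    · intro b hb
      rw [monomial_mul]; exact monomial_mem_Sup (h a b ha hb) _

theorem Sup.rename {T : (X →₀ ℕ) → Prop} {T' : (Y →₀ ℕ) → Prop} (f : X → Y)
    (h : ∀ m, T m → T' (m.mapDomain f)) {p : P X} (hp : p ∈ Sup T) : rename f p ∈ Sup T' := by
  refine Sup.map_mem (MvPolynomial.rename f : P X →ₐ[ZMod 2] P Y).toLinearMap _ ?_ hp
  intro m hm
  simp only [AlgHom.toLinearMap_apply, rename_monomial]
  exact monomial_mem_Sup (h m hm) _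

theorem mem_Sup_true (p : P X) : p ∈ Sup (fun _ => True) := fun _ _ => trivial

/-- chains of degree `n` (dimension `n - 1`) whose simplices have vertex sets in `S` -/
def Ch (S : Set X → Prop) (n : ℕ) : Submodule (ZMod 2) (P X) :=
  Sup (fun m => S (m.support : Set X) ∧ m.degree = n)

/-- degenerate chains: every monomial repeats a vertex -/
def Deg (X : Type*) : Submodule (ZMod 2) (P X) := Sup (fun m => ∃ i, 2 ≤ m i)

/-- a down-closed family of vertex sets -/
def Down (S : Set X → Prop) : Prop := ∀ s t : Set X, t ⊆ s → S s → S t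

theorem Ch.mono {S S' : Set X → Prop} (h : ∀ s, S s → S' s) {n : ℕ} {p : P X} (hp : p ∈ Ch S n) :
    p ∈ Ch S' n := Sup.mono (fun _ hm => ⟨h _ hm.1, hm.2⟩) hp

theorem Ch.and {S S' : Set X → Prop} {n : ℕ} {p : P X} (hp : p ∈ Ch S n) (hp' : p ∈ Ch S' n) :
    p ∈ Ch (fun s => S s ∧ S' s) n := fun m hm => ⟨⟨(hp m hm).1, (hp' m hm).1⟩, (hp m hm).2⟩

theorem coe_support_add (a b : X →₀ ℕ) :
    ((a + b).support : Set X) = (a.support : Set X) ∪ b.support := by
  ext i
  simp only [Finset.mem_coe, Finsupp.mem_support_iff, Finsupp.add_apply, Set.mem_union]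
  omega

theorem Ch.mul {S₁ S₂ S : Set X → Prop} (h : ∀ s t, S₁ s → S₂ t → S (s ∪ t)) {a b : ℕ}
    {p q : P X} (hp : p ∈ Ch S₁ a) (hq : q ∈ Ch S₂ b) : p * q ∈ Ch S (a + b) := by
  refine Sup.mul ?_ hp hq
  rintro m m' ⟨h1, h2⟩ ⟨h3, h4⟩
  refine ⟨?_, by rw [map_add, h2, h4]⟩
  rw [coe_support_add]; exact h _ _ h1 h3

theorem coe_support_mapDomain (f : X → Y) (m : X →₀ ℕ) :
    ((m.mapDomain f).support : Set Y) = f '' (m.support : Set X) := by
  classical
  rw [Finsupp.mapDomain_support_of_subsingletonAddUnits, Finset.coe_image]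

theorem degree_mapDomain' (f : X → Y) (m : X →₀ ℕ) : (m.mapDomain f).degree = m.degree :=
  Finsupp.degree_mapDomain f m

theorem Ch.rename {S : Set X → Prop} {S' : Set Y → Prop} (f : X → Y)
    (h : ∀ s, S s → S' (f '' s)) {n : ℕ} {p : P X} (hp : p ∈ Ch S n) : rename f p ∈ Ch S' n := by
  refine Sup.rename f ?_ hp
  rintro m ⟨h1, h2⟩
  exact ⟨by rw [coe_support_mapDomain]; exact h _ h1, by rw [degree_mapDomain', h2]⟩

theorem X_mem_Ch {S : Set X → Prop} {i : X} (h : S {i}) : (MvPolynomial.X i : P X) ∈ Ch S 1 := by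
  refine monomial_mem_Sup ⟨?_, by simp⟩ 1
  rw [Finsupp.support_single _ one_ne_zero, Finset.coe_singleton]; exact h

theorem one_mem_Ch {S : Set X → Prop} (h : S ∅) : (1 : P X) ∈ Ch S 0 := by
  refine monomial_mem_Sup (m := 0) ⟨?_, by simp⟩ 1
  simpa using h

theorem degree_sub_single {m : X →₀ ℕ} {i : X} (hi : i ∈ m.support) :
    (m - Finsupp.single i 1).degree + 1 = m.degree := by
  have h : m - Finsupp.single i 1 + Finsupp.single i 1 = m :=
    Finsupp.sub_add_single_one_cancel (Finsupp.mem_support_iff.1 hi)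
  conv_rhs => rw [← h]
  simp

theorem support_sub_subset (m m' : X →₀ ℕ) : ((m - m').support : Set X) ⊆ m.support := by
  intro i
  simp only [Finset.mem_coe, Finsupp.mem_support_iff, Finsupp.coe_tsub, Pi.sub_apply]
  omega

theorem Ch.der {S : Set X → Prop} (hS : Down S) (g : X → ZMod 2) {n : ℕ} {p : P X}
    (hp : p ∈ Ch S (n + 1)) : der g p ∈ Ch S n := by
  refine Sup.map_mem (Mod2Chain.der g) _ ?_ hp
  rintro m ⟨h1, h2⟩
  rw [der_monomial]
  refine Submodule.sum_mem _ fun i hi => monomial_mem_Sup ⟨?_, ?_⟩ _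
  · exact hS _ _ (support_sub_subset _ _) h1
  · have := degree_sub_single hi; omega

theorem Ch.bd {S : Set X → Prop} (hS : Down S) {n : ℕ} {p : P X}
    (hp : p ∈ Ch S (n + 1)) : bd p ∈ Ch S n := Ch.der hS _ hp

theorem Ch.eq_C {S : Set X → Prop} {p : P X} (hp : p ∈ Ch S 0) : p = C (coeff 0 p) := by
  classical
  ext m
  rw [coeff_C]
  split_ifs with h
  · rw [← h]
  · by_contra h'
    have := (hp m h').2
    rw [Finsupp.degree_eq_zero_iff] at this
    exact h this.symm

theorem Ch.der_zero {S : Set X → Prop} (g : X → ZMod 2) {p : P X} (hp : p ∈ Ch S 0) :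
    Mod2Chain.der g p = 0 := by
  rw [Ch.eq_C hp, der_C]

theorem Ch.rename_zero {S : Set X → Prop} (f : X → X) {p : P X} (hp : p ∈ Ch S 0) :
    MvPolynomial.rename f p = p := by
  rw [Ch.eq_C hp, rename_C]

theorem Deg.der (g : X → ZMod 2) {p : P X} (hp : p ∈ Deg X) : der g p ∈ Deg X := by
  classical
  refine Sup.map_mem (Mod2Chain.der g) _ ?_ hp
  rintro m ⟨j, hj⟩
  rw [der_monomial]
  refine Submodule.sum_mem _ fun i _ => ?_
  by_cases hij : i = j
  · subst hij
    by_cases h2 : m i = 2
    · rw [h2]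
      have : ((2 : ℕ) : ZMod 2) = 0 := by decide
      rw [this, zero_mul, monomial_zero]; exact Submodule.zero_mem _
    · refine monomial_mem_Sup ⟨i, ?_⟩ _
      simp only [Finsupp.coe_tsub, Pi.sub_apply, Finsupp.single_eq_same]; omega
  · refine monomial_mem_Sup ⟨j, ?_⟩ _
    simp only [Finsupp.coe_tsub, Pi.sub_apply, Finsupp.single_eq_of_ne (Ne.symm hij)]; omega

theorem Deg.bd {p : P X} (hp : p ∈ Deg X) : bd p ∈ Deg X := Deg.der _ hp

theorem Deg.mul_right {p : P X} (hp : p ∈ Deg X) (q : P X) : p * q ∈ Deg X := by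
  refine Sup.mul ?_ hp (mem_Sup_true q)
  rintro a b ⟨i, hi⟩ -
  exact ⟨i, by rw [Finsupp.add_apply]; omega⟩

theorem Deg.mul_left {p : P X} (hp : p ∈ Deg X) (q : P X) : q * p ∈ Deg X := by
  rw [mul_comm]; exact Deg.mul_right hp q

theorem le_mapDomain_apply (f : X → Y) (m : X →₀ ℕ) (i : X) : m i ≤ (m.mapDomain f) (f i) := by
  classical
  have h : Finsupp.single i (m i) ≤ m := by
    rw [Finsupp.single_le_iff]
  have := Finsupp.mapDomain_mono (f := f) h
  rw [Finsupp.mapDomain_single] at this
  simpa using this (f i)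

theorem Deg.rename (f : X → Y) {p : P X} (hp : p ∈ Deg X) : rename f p ∈ Deg Y := by
  refine Sup.rename f ?_ hp
  rintro m ⟨i, hi⟩
  exact ⟨f i, hi.trans (le_mapDomain_apply f m i)⟩

theorem one_notMem_Deg : (1 : P X) ∉ Deg X := by
  intro h
  obtain ⟨i, hi⟩ := h 0 (by simp)
  simp at hi

/-- a chain of degree `n` on fewer than `n` vertices is degenerate -/
theorem Ch.mem_Deg_of_card {s : Finset X} {n : ℕ} (hn : s.card < n) {p : P X}
    (hp : p ∈ Ch (fun t => t ⊆ (s : Set X)) n) : p ∈ Deg X := by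
  intro m hm
  obtain ⟨h1, h2⟩ := hp m hm
  by_contra hcon
  push Not at hcon
  have h3 : m.degree ≤ m.support.card := by
    rw [Finsupp.degree_apply]
    calc ∑ i ∈ m.support, m i ≤ ∑ _i ∈ m.support, 1 :=
          Finset.sum_le_sum fun i _ => by have := hcon i; omega
      _ = m.support.card := by simp
  have h4 : m.support.card ≤ s.card := Finset.card_le_card (Finset.coe_subset.1 h1)
  omega

theorem rename_congr {S : Set X → Prop} {n : ℕ} {p : P X} (hp : p ∈ Ch S n) {f g : X → Y}
    (h : ∀ s, S s → ∀ x ∈ s, f x = g x) : rename f p = rename g p := by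
  refine Sup.map_eq (MvPolynomial.rename f : P X →ₐ[ZMod 2] P Y).toLinearMap
    (MvPolynomial.rename g : P X →ₐ[ZMod 2] P Y).toLinearMap ?_ hp
  rintro m ⟨h1, -⟩
  simp only [AlgHom.toLinearMap_apply, rename_monomial]
  rw [Finsupp.mapDomain_congr fun x hx => h _ h1 x hx]

/-- the linear map with prescribed values on monomials -/
noncomputable def onMon {M : Type*} [AddCommGroup M] [Module (ZMod 2) M] (f : (X →₀ ℕ) → M) :
    P X →ₗ[ZMod 2] M :=
  (basisMonomials X (ZMod 2)).constr (ZMod 2) f

@[simp] theorem onMon_monomial {M : Type*} [AddCommGroup M] [Module (ZMod 2) M]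
    (f : (X →₀ ℕ) → M) (m : X →₀ ℕ) : onMon f (monomial m 1) = f m := by
  have := (basisMonomials X (ZMod 2)).constr_basis (ZMod 2) f m
  rwa [coe_basisMonomials] at this

/-- coefficients of the boundary -/
theorem coeff_bd [Fintype X] (p : P X) (m : X →₀ ℕ) :
    coeff m (bd p) = ∑ v, coeff (m + Finsupp.single v 1) p * ((m v : ZMod 2) + 1) := by
  have : bd p = ∑ v, pderiv v p := by
    induction p using MvPolynomial.induction_on with
    | C a => simp
    | add p q hp hq => simp [hp, hq, Finset.sum_add_distrib]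
    | mul_X p i hp =>
      classical
      rw [bd_mul, hp, bd_X]
      simp only [pderiv_mul, Finset.sum_add_distrib, Finset.sum_mul, pderiv_X]
      congr 1
      rw [← Finset.mul_sum]
      congr 1
      rw [Finset.sum_eq_single i] <;> simp +contextual [eq_comm]
  rw [this, coeff_sum]
  exact Finset.sum_congr rfl fun v _ => coeff_pderiv p m

end Crest.Agent.Mod2Chain
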