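import Crest.Agent.Lib.Mod2Chain.Basic

/-!
Acyclic carriers, hemisphere sequences (chain-level Borsuk-Ulam) and the ridge lemma.
-/

set_option autoImplicit false

namespace Crest.Agent.Mod2Chain

open MvPolynomial

variable {X Y : Type*}

/-- graded exactness of a family of submodules -/
def Acyc (A : ℕ → Submodule (ZMod 2) (P Y)) : Prop :=
  ∀ n, ∀ z ∈ A n, bd z = 0 → ∃ y ∈ A (n + 1), bd y = z

/-- a cone is acyclic -/
theorem acyc_cone {S : Set Y → Prop} (p : Y) (h : ∀ s, S s → S ({p} ∪ s)) : Acyc (Ch S) := by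
  intro n z hz h0
  refine ⟨MvPolynomial.X p * z, ?_, by rw [bd_X_mul, h0, mul_zero, add_zero]⟩
  rw [add_comm]
  exact Ch.mul (S₁ := fun s => s = {p}) (by rintro s t rfl ht; exact h t ht) (X_mem_Ch rfl) hz

theorem acyc_subset {W : Set Y} (hW : W.Nonempty) : Acyc (Ch (fun s => s ⊆ W)) := by
  obtain ⟨p, hp⟩ := hW
  exact acyc_cone p fun s hs => Set.union_subset (Set.singleton_subset_iff.2 hp) hs

theorem down_subset (W : Set Y) : Down (fun s => s ⊆ W) := fun _ _ h h' => h.trans h'

theorem monomial_mem_Ch {S : Set X → Prop} {m : X →₀ ℕ} (h : S m.support) :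
    (monomial m 1 : P X) ∈ Ch S m.degree := monomial_mem_Sup ⟨h, rfl⟩ 1

/-- The acyclic carrier lemma. -/
theorem carrier {S : Set X → Prop} (hS : Down S) (A : Set X → ℕ → Submodule (ZMod 2) (P Y))
    (hmono : ∀ s t n, S s → t ⊆ s → A t n ≤ A s n)
    (hac : ∀ s, S s → s.Nonempty → Acyc (A s))
    (D : P X →ₗ[ZMod 2] P Y) (hD1 : D 1 = 0) (N : ℕ)
    (hD : ∀ m : X →₀ ℕ, S m.support → m.degree ≤ N → bd (D (monomial m 1)) = D (bd (monomial m 1)))
    (hDA : ∀ m : X →₀ ℕ, S m.support → m.degree ≤ N → D (monomial m 1) ∈ A m.support m.degree) :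
    ∃ h : P X →ₗ[ZMod 2] P Y, ∀ m : X →₀ ℕ, S m.support → m.degree ≤ N →
      h (monomial m 1) ∈ A m.support (m.degree + 1) ∧
        bd (h (monomial m 1)) + h (bd (monomial m 1)) = D (monomial m 1) := by
  classical
  induction N with
  | zero =>
    refine ⟨0, fun m _ hm => ⟨by simp, ?_⟩⟩
    have : m = 0 := by rwa [Nat.le_zero, Finsupp.degree_eq_zero_iff] at hm
    subst this
    simp only [LinearMap.zero_apply, map_zero, add_zero]
    exact hD1.symm
  | succ N ih =>
    obtain ⟨h, hh⟩ := ih (fun m h1 h2 => hD m h1 (by omega)) (fun m h1 h2 => hDA m h1 (by omega))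
    have key : ∀ m : X →₀ ℕ, S m.support → m.degree = N + 1 →
        ∃ y ∈ A m.support (m.degree + 1), bd y = D (monomial m 1) + h (bd (monomial m 1)) := by
      intro m hm hdeg
      have hne : (m.support : Set X).Nonempty := by
        rw [Finset.coe_nonempty, Finsupp.support_nonempty_iff]
        rintro rfl; simp at hdeg
      have hb : bd (monomial m 1 : P X) ∈ Ch (fun t => t ⊆ (m.support : Set X)) N := by
        apply Ch.bd (down_subset _)
        rw [← hdeg]; exact monomial_mem_Ch subset_rfl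
      refine hac _ hm hne _ _ (Submodule.add_mem _ (hDA m hm hdeg.le) ?_) ?_
      · refine Sup.map_mem h _ ?_ hb
        rintro m' ⟨h1, h2⟩
        have := (hh m' (hS _ _ h1 hm) h2.le).1
        rw [h2, ← hdeg] at this
        exact hmono _ _ _ hm h1 this
      · rw [map_add, hD m hm hdeg.le]
        have : (bd ∘ₗ h + h ∘ₗ bd) (bd (monomial m 1 : P X)) = D (bd (monomial m 1)) := by
          refine Sup.map_eq _ _ ?_ hb
          rintro m' ⟨h1, h2⟩
          exact (hh m' (hS _ _ h1 hm) h2.le).2
        simp only [LinearMap.add_apply, LinearMap.comp_apply, bd_bd, map_zero, add_zero] at this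
        rw [this, add_self]
    choose! y hy1 hy2 using key
    let h' : P X →ₗ[ZMod 2] P Y :=
      onMon (fun m => if m.degree = N + 1 then y m else h (monomial m 1))
    have hh' : ∀ n ≤ N, ∀ p ∈ Ch (fun _ : Set X => True) n, h' p = h p := by
      intro n hn p hp
      refine Sup.map_eq _ _ ?_ hp
      rintro m ⟨-, h2⟩
      simp only [h', onMon_monomial]
      rw [if_neg (by omega)]
    have hbd : ∀ m : X →₀ ℕ, m.degree ≤ N + 1 →
        h' (bd (monomial m 1)) = h (bd (monomial m 1)) := by
      intro m hm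
      have h0 : (monomial m 1 : P X) ∈ Ch (fun _ : Set X => True) m.degree :=
        monomial_mem_Ch trivial
      rcases hd : m.degree with _ | k
      · rw [hd] at h0
        have : bd (monomial m 1 : P X) = 0 := Ch.der_zero _ h0
        rw [this, map_zero, map_zero]
      · rw [hd] at h0
        exact hh' k (by omega) _ (Ch.bd (fun _ _ _ _ => trivial) h0)
    refine ⟨h', fun m hm hdeg => ?_⟩
    rw [hbd m hdeg]
    by_cases hd : m.degree = N + 1
    · have : h' (monomial m 1) = y m := by simp only [h', onMon_monomial, if_pos hd]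
      rw [this]
      refine ⟨hy1 m hm hd, ?_⟩
      rw [hy2 m hm hd, add_assoc, add_self, add_zero]
    · have : h' (monomial m 1) = h (monomial m 1) := by simp only [h', onMon_monomial, if_neg hd]
      rw [this]
      exact hh m hm (by omega)

/-- The acyclic carrier lemma applied to a cycle. -/
theorem carrier_cycle {S : Set X → Prop} (hS : Down S) (A : Set X → ℕ → Submodule (ZMod 2) (P Y))
    (hmono : ∀ s t n, S s → t ⊆ s → A t n ≤ A s n)
    (hac : ∀ s, S s → s.Nonempty → Acyc (A s))
    (D : P X →ₗ[ZMod 2] P Y) (hD1 : D 1 = 0) (N : ℕ)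
    (hD : ∀ p, bd (D p) = D (bd p))
    (hDA : ∀ m : X →₀ ℕ, S m.support → m.degree ≤ N → D (monomial m 1) ∈ A m.support m.degree)
    (B : Submodule (ZMod 2) (P Y)) (hB : ∀ s, S s → A s (N + 1) ≤ B)
    {η : P X} (hη : η ∈ Ch S N) (h0 : bd η = 0) : ∃ y ∈ B, bd y = D η := by
  obtain ⟨h, hh⟩ := carrier hS A hmono hac D hD1 N (fun m _ _ => hD _) hDA
  refine ⟨h η, ?_, ?_⟩
  · refine Sup.map_mem h _ ?_ hη
    rintro m ⟨h1, h2⟩
    have := (hh m h1 h2.le).1
    rw [h2] at this
    exact hB _ h1 this
  · have : (bd ∘ₗ h + h ∘ₗ bd) η = D η := by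
      refine Sup.map_eq _ _ ?_ hη
      rintro m' ⟨h1, h2⟩
      exact (hh m' h1 h2.le).2
    simpa only [LinearMap.add_apply, LinearMap.comp_apply, h0, map_zero, add_zero] using this

/-- Two chain maps carried by the simplices of the target agree up to degenerate chains on a
simplex whose carrier has no more vertices than its degree (Sperner-type statement). -/
theorem carrier_deg {S : Set X → Prop} (hS : Down S) (g : X → Y)
    (D : P X →ₗ[ZMod 2] P Y) (hD1 : D 1 = 0)
    (hD : ∀ p, bd (D p) = D (bd p))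
    (hDA : ∀ m : X →₀ ℕ, S m.support →
      D (monomial m 1) ∈ Ch (fun t => t ⊆ g '' (m.support : Set X)) m.degree)
    (m : X →₀ ℕ) (hm : S m.support) : D (monomial m 1) ∈ Deg Y := by
  classical
  obtain ⟨h, hh⟩ := carrier hS (fun s n => Ch (fun t => t ⊆ g '' s) n)
    (fun s t n _ hts p hp => Ch.mono (fun u hu => hu.trans (Set.image_mono hts)) hp)
    (fun s _ hs => acyc_subset (hs.image g)) D hD1 m.degree (fun m _ _ => hD _)
    (fun m h1 _ => hDA m h1)
  have hdeg : ∀ m' : X →₀ ℕ, S m'.support → m'.degree ≤ m.degree → h (monomial m' 1) ∈ Deg Y := by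
    intro m' h1 h2
    have := (hh m' h1 h2).1
    rw [← Finset.coe_image] at this
    refine Ch.mem_Deg_of_card ?_ this
    have h3 : m'.support.card ≤ m'.degree := by
      rw [Finsupp.degree_apply]
      calc m'.support.card = ∑ _i ∈ m'.support, 1 := by simp
        _ ≤ ∑ i ∈ m'.support, m' i := Finset.sum_le_sum fun i hi => by
          have := Finsupp.mem_support_iff.1 hi; omega
    have := Finset.card_image_le (s := m'.support) (f := g)
    omega
  rw [← (hh m hm le_rfl).2]
  refine Submodule.add_mem _ (Deg.bd (hdeg m hm le_rfl)) ?_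
  have h0 : (monomial m 1 : P X) ∈ Ch S m.degree := monomial_mem_Ch hm
  rcases hd : m.degree with _ | k
  · rw [hd] at h0
    have : bd (monomial m 1 : P X) = 0 := Ch.der_zero _ h0
    rw [this, map_zero]; exact Submodule.zero_mem _
  · rw [hd] at h0
    refine Sup.map_mem h _ ?_ (Ch.bd hS h0)
    rintro m' ⟨h1, h2⟩
    exact hdeg m' h1 (by omega)

/-- hemisphere sequences: `Hemi S ν k β` says that `β` is the top member of a sequence
`β₀, …, β_k` of chains in `S` with `∂β₀ = 1` and `∂β_{j+1} = β_j + νβ_j`. -/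
def Hemi (S : Set Y → Prop) (ν : Y → Y) : ℕ → P Y → Prop
  | 0, β => β ∈ Ch S 1 ∧ bd β = 1
  | k + 1, β => β ∈ Ch S (k + 2) ∧ ∃ β', Hemi S ν k β' ∧ bd β = β' + rename ν β'

theorem Hemi.mem {S : Set Y → Prop} {ν : Y → Y} {k : ℕ} {β : P Y} (h : Hemi S ν k β) :
    β ∈ Ch S (k + 1) := by
  cases k with
  | zero => exact h.1
  | succ k => exact h.1

theorem Hemi.add_bd {S : Set Y → Prop} (hS : Down S) {ν : Y → Y} {k : ℕ} {β γ : P Y}
    (h : Hemi S ν k β) (hγ : γ ∈ Ch S (k + 2)) : Hemi S ν k (β + bd γ) := by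
  cases k with
  | zero => exact ⟨Submodule.add_mem _ h.1 (Ch.bd hS hγ), by rw [map_add, h.2, bd_bd, add_zero]⟩
  | succ k =>
    obtain ⟨h1, β', h2, h3⟩ := h
    exact ⟨Submodule.add_mem _ h1 (Ch.bd hS hγ), β', h2, by rw [map_add, h3, bd_bd, add_zero]⟩

theorem rename_rename_invol {ν : Y → Y} (hν : Function.Involutive ν) (p : P Y) :
    rename ν (rename ν p) = p := by
  rw [rename_rename, hν.comp_self, rename_id]; rfl

theorem Hemi.cycle {S : Set Y → Prop} {ν : Y → Y} (hν : Function.Involutive ν) {k : ℕ} {β : P Y}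
    (h : Hemi S ν k β) : bd (β + rename ν β) = 0 := by
  rw [map_add, bd_rename]
  cases k with
  | zero => rw [h.2, map_one, add_self]
  | succ k =>
    obtain ⟨-, β', -, h3⟩ := h
    rw [h3, map_add, rename_rename_invol hν, add_comm (rename ν β'), add_self]

theorem Hemi.mono {S S' : Set Y → Prop} (hS : ∀ s, S s → S' s) {ν : Y → Y} {k : ℕ} {β : P Y}
    (h : Hemi S ν k β) : Hemi S' ν k β := by
  induction k generalizing β with
  | zero => exact ⟨Ch.mono hS h.1, h.2⟩
  | succ k ih =>
    obtain ⟨h1, β', h2, h3⟩ := h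
    exact ⟨Ch.mono hS h1, β', ih h2, h3⟩

/-- transport of a hemisphere sequence along an equivariant vertex map -/
theorem Hemi.rename {S : Set X → Prop} {S' : Set Y → Prop} {ν : X → X} {ν' : Y → Y} (f : X → Y)
    (hS : ∀ s, S s → S' (f '' s)) (hf : ∀ s, S s → ∀ x ∈ s, f (ν x) = ν' (f x))
    {k : ℕ} {β : P X} (h : Hemi S ν k β) : Hemi S' ν' k (rename f β) := by
  induction k generalizing β with
  | zero => exact ⟨Ch.rename f hS h.1, by rw [bd_rename, h.2, map_one]⟩
  | succ k ih =>
    obtain ⟨h1, β', h2, h3⟩ := h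
    refine ⟨Ch.rename f hS h1, _, ih h2, ?_⟩
    rw [bd_rename, h3, map_add, rename_rename, rename_rename]
    congr 1
    exact rename_congr h2.mem hf

theorem coeff_rename_invol {ν : Y → Y} (hν : Function.Involutive ν) (p : P Y) (m : Y →₀ ℕ) :
    coeff m (rename ν p) = coeff (m.mapDomain ν) p := by
  have : m = (m.mapDomain ν).mapDomain ν := by
    rw [← Finsupp.mapDomain_comp, hν.comp_self, Finsupp.mapDomain_id]
  conv_lhs => rw [this]
  exact coeff_rename_mapDomain ν hν.injective p _

theorem exact_mod_deg {S : Set Y → Prop} {ν : Y → Y} (hν : Function.Involutive ν)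
    (hfree : ∀ s, S s → ∀ y ∈ s, ν y ∉ s) {n : ℕ} {p : P Y} (hp : p ∈ Ch S (n + 1))
    (hd : p + rename ν p ∈ Deg Y) : ∃ γ ∈ Ch S (n + 1), p + (γ + rename ν γ) ∈ Deg Y := by
  classical
  let r : (Y →₀ ℕ) → (Y →₀ ℕ) → Prop := WellOrderingRel
  have htri : ∀ a b, a ≠ b → (r a b ∧ ¬ r b a) ∨ (r b a ∧ ¬ r a b) := by
    intro a b hab
    rcases trichotomous_of r a b with h | h | h
    · exact Or.inl ⟨h, asymm_of r h⟩
    · exact absurd h hab
    · exact Or.inr ⟨h, asymm_of r h⟩
  let o : (Y →₀ ℕ) → Prop := fun m => r m (m.mapDomain ν)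
  let γ : P Y := ∑ m ∈ p.support.filter o, monomial m (coeff m p)
  have hγ : ∀ m, coeff m γ = if o m then coeff m p else 0 := by
    intro m
    simp only [γ, coeff_sum, coeff_monomial]
    rw [Finset.sum_ite_eq']
    simp only [Finset.mem_filter, mem_support_iff]
    by_cases h1 : o m <;> by_cases h2 : coeff m p = 0 <;> simp [h1, h2]
  have hνν : ∀ m : Y →₀ ℕ, (m.mapDomain ν).mapDomain ν = m := fun m => by
    rw [← Finsupp.mapDomain_comp, hν.comp_self, Finsupp.mapDomain_id]
  refine ⟨γ, ?_, ?_⟩
  · intro m hm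
    rw [hγ] at hm
    split_ifs at hm with h
    · exact hp m hm
    · exact absurd rfl hm
  · intro m hm
    by_contra hcon
    have h1 : coeff m (p + rename ν p) = 0 := by
      by_contra h; exact hcon (hd m h)
    rw [coeff_add, coeff_rename_invol hν] at h1
    have h2 : coeff (m.mapDomain ν) p = coeff m p := by
      have := CharTwo.add_self_eq_zero (coeff m p)
      exact add_left_cancel (h1.trans this.symm)
    apply hm
    rw [coeff_add, coeff_add, coeff_rename_invol hν, hγ, hγ, h2]
    by_cases h3 : coeff m p = 0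
    · simp [h3]
    · obtain ⟨h4, h5⟩ := hp m h3
      have hne : m.mapDomain ν ≠ m := by
        intro h
        have hne : m.support.Nonempty := by
          rw [Finsupp.support_nonempty_iff]; rintro rfl; simp at h5
        obtain ⟨y, hy⟩ := hne
        apply hfree _ h4 y hy
        have := le_mapDomain_apply ν m y
        rw [h] at this
        have h6 := Finsupp.mem_support_iff.1 hy
        simp only [Finset.mem_coe, Finsupp.mem_support_iff]; omega
      simp only [o, hνν]
      rcases htri _ _ hne with h | h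
      · rw [if_neg h.2, if_pos h.1, zero_add]; exact CharTwo.add_self_eq_zero _
      · rw [if_pos h.1, if_neg h.2, add_zero]; exact CharTwo.add_self_eq_zero _

/-- chain-level Borsuk-Ulam: the symmetrised top hemisphere is not degenerate -/
theorem Hemi.notMem_Deg {S : Set Y → Prop} (hS : Down S) {ν : Y → Y} (hν : Function.Involutive ν)
    (hfree : ∀ s, S s → ∀ y ∈ s, ν y ∉ s) {k : ℕ} {β : P Y} (h : Hemi S ν k β) :
    β + MvPolynomial.rename ν β ∉ Deg Y := by
  induction k generalizing β with
  | zero =>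
    intro hd
    obtain ⟨γ, hγ, h1⟩ := exact_mod_deg hν hfree h.1 hd
    have h2 := Deg.bd h1
    have h3 : bd γ ∈ Ch S 0 := Ch.bd hS hγ
    rw [map_add, map_add, bd_rename, Ch.rename_zero ν h3, add_self, add_zero, h.2] at h2
    exact one_notMem_Deg h2
  | succ k ih =>
    intro hd
    obtain ⟨h1, β', h2, h3⟩ := h
    obtain ⟨γ, hγ, h4⟩ := exact_mod_deg hν hfree h1 hd
    apply ih (h2.add_bd hS hγ)
    have h5 := Deg.bd h4
    rw [map_add, map_add, bd_rename, h3] at h5
    convert h5 using 1
    rw [map_add]; ring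

/-- ridge lemma: in a cycle, every ridge of a squarefree simplex lies in another simplex -/
theorem ridge [Fintype Y] {ω : P Y} (h0 : bd ω = 0) {m : Y →₀ ℕ} (hsq : ∀ i, m i ≤ 1)
    (hm : coeff m ω ≠ 0) {d : Y} (hd : d ∈ m.support) :
    ∃ v, v ∉ m.support ∧ coeff (m - Finsupp.single d 1 + Finsupp.single v 1) ω ≠ 0 := by
  classical
  have h1 := coeff_bd ω (m - Finsupp.single d 1)
  rw [h0, coeff_zero] at h1
  by_contra hcon
  push Not at hcon
  have hd' := Finsupp.mem_support_iff.1 hd
  rw [Finset.sum_eq_single d] at h1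
  · rw [Finsupp.sub_add_single_one_cancel hd'] at h1
    have : (m - Finsupp.single d 1 : Y →₀ ℕ) d = 0 := by
      have := hsq d
      simp only [Finsupp.coe_tsub, Pi.sub_apply, Finsupp.single_eq_same]; omega
    rw [this] at h1
    simp only [Nat.cast_zero, zero_add, mul_one] at h1
    exact hm h1.symm
  · intro v _ hv
    by_cases hv' : v ∈ m.support
    · have : (m - Finsupp.single d 1 : Y →₀ ℕ) v = 1 := by
        have h2 := hsq v
        have h3 := Finsupp.mem_support_iff.1 hv'
        simp only [Finsupp.coe_tsub, Pi.sub_apply, Finsupp.single_eq_of_ne hv]; omega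
      rw [this]
      have : ((1 : ℕ) : ZMod 2) + 1 = 0 := by decide
      rw [this, mul_zero]
    · rw [hcon v hv', zero_mul]
  · simp

theorem exists_sq_of_notMem_Deg {p : P Y} (h : p ∉ Deg Y) :
    ∃ m : Y →₀ ℕ, (∀ i, m i ≤ 1) ∧ coeff m p ≠ 0 := by
  by_contra hcon
  push Not at hcon
  apply h
  intro m hm
  by_contra h2
  push Not at h2
  exact hm (hcon m fun i => by have := h2 i; omega)

/-- killing the variables in `A` -/
noncomputable def kill (A : Set Y) : P Y →ₐ[ZMod 2] P Y := by
  classical exact aeval (fun y => if y ∈ A then 0 else MvPolynomial.X y)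

theorem kill_X (A : Set Y) [DecidablePred (· ∈ A)] (y : Y) :
    kill A (MvPolynomial.X y) = if y ∈ A then 0 else MvPolynomial.X y := by
  simp only [kill, aeval_X]; congr

theorem kill_monomial_of_disjoint (A : Set Y) (m : Y →₀ ℕ) (h : ∀ y ∈ m.support, y ∉ A) :
    kill A (monomial m 1) = monomial m 1 := by
  classical
  rw [monomial_eq, C_1, one_mul, Finsupp.prod, map_prod]
  refine Finset.prod_congr rfl fun y hy => ?_
  rw [map_pow, kill_X, if_neg (h y hy)]

theorem kill_monomial_of_mem (A : Set Y) (m : Y →₀ ℕ) {y : Y} (hy : y ∈ m.support) (h : y ∈ A) :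
    kill A (monomial m 1) = 0 := by
  classical
  rw [monomial_eq, C_1, one_mul, Finsupp.prod, map_prod]
  refine Finset.prod_eq_zero hy ?_
  rw [map_pow, kill_X, if_pos h, zero_pow (Finsupp.mem_support_iff.1 hy)]

theorem Ch.kill (A : Set Y) {S : Set Y → Prop} {n : ℕ} {p : P Y} (hp : p ∈ Ch S n) :
    kill A p ∈ Ch (fun s => S s ∧ ∀ y ∈ s, y ∉ A) n := by
  refine Sup.map_mem (Mod2Chain.kill A).toLinearMap _ ?_ hp
  rintro m ⟨h1, h2⟩
  simp only [AlgHom.toLinearMap_apply]
  by_cases h : ∀ y ∈ m.support, y ∉ A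
  · rw [kill_monomial_of_disjoint A m h]
    exact monomial_mem_Sup ⟨⟨h1, h⟩, h2⟩ 1
  · push Not at h
    obtain ⟨y, hy, hyA⟩ := h
    rw [kill_monomial_of_mem A m hy hyA]; exact Submodule.zero_mem _

theorem kill_bd (A : Set Y) (p : P Y) :
    kill A (bd p) = bd (kill A p) + kill A (der (A.indicator 1) p) := by
  classical
  induction p using MvPolynomial.induction_on with
  | C a => simp [kill]
  | add p q hp hq => simp only [map_add, hp, hq]; ring
  | mul_X p i hp =>
    simp only [bd_mul, der_mul, der_X, map_add, map_mul, hp, bd_X, map_one, kill_X]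
    by_cases hi : i ∈ A
    · simp [hi]
    · simp [hi]; ring

theorem rename_kill {ν : Y → Y} (A : Set Y) (hA : ∀ y, ν y ∈ A ↔ y ∈ A) (p : P Y) :
    rename ν (kill A p) = kill A (rename ν p) := by
  classical
  induction p using MvPolynomial.induction_on with
  | C a => simp [kill]
  | add p q hp hq => simp only [map_add, hp, hq]
  | mul_X p i hp =>
    simp only [map_mul, hp, kill_X, rename_X, hA]
    by_cases hi : i ∈ A <;> simp [hi]

theorem der_eq_zero_of_forall {g : Y → ZMod 2} {m : Y →₀ ℕ} (h : ∀ y ∈ m.support, g y = 0) :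
    der g (monomial m 1) = 0 := by
  rw [der_monomial]
  exact Finset.sum_eq_zero fun y hy => by rw [h y hy, mul_zero, monomial_zero]

theorem der_der_eq_zero {S : Set Y → Prop} {g g' : Y → ZMod 2}
    (h : ∀ s, S s → (∀ y ∈ s, g y = 0) ∨ (∀ y ∈ s, g' y = 0)) {n : ℕ} {p : P Y}
    (hp : p ∈ Ch S n) : der g (der g' p) = 0 := by
  have := Sup.map_eq (der g ∘ₗ der g') 0 ?_ hp
  · simpa using this
  rintro m ⟨h1, -⟩
  simp only [LinearMap.comp_apply, LinearMap.zero_apply]
  rcases h _ h1 with h2 | h2
  · rw [der_comm, der_eq_zero_of_forall h2, map_zero]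
  · rw [der_eq_zero_of_forall h2, map_zero]

/-- Removing a set of vertices that splits into two mutually non-adjacent halves swapped by `ν`
lowers the length of a hemisphere sequence by at most one. -/
theorem Hemi.remove {S : Set Y → Prop} (hS : Down S) {ν : Y → Y}
    (A : Bool → Set Y) (hdisj : Disjoint (A true) (A false))
    (hA : ∀ b y, ν y ∈ A b ↔ y ∈ A (!b))
    (hsep : ∀ s, S s → (∀ y ∈ s, y ∉ A true) ∨ (∀ y ∈ s, y ∉ A false))
    {k : ℕ} {β : P Y} (h : Hemi S ν (k + 1) β) :
    ∃ γ, Hemi (fun s => S s ∧ ∀ y ∈ s, y ∉ A true ∪ A false) ν k γ := by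
  classical
  set U := A true ∪ A false with hU
  set D : Bool → P Y →ₗ[ZMod 2] P Y := fun b => der ((A b).indicator 1) with hD
  have hUν : ∀ y, ν y ∈ U ↔ y ∈ U := by
    intro y; simp only [hU, Set.mem_union, hA, Bool.not_true, Bool.not_false]; exact or_comm
  have hind : ∀ b, U.indicator (1 : Y → ZMod 2) = (A b).indicator 1 + (A (!b)).indicator 1 := by
    intro b
    cases b
    · rw [hU, Set.union_comm]; exact Set.indicator_union_of_disjoint hdisj.symm _
    · exact Set.indicator_union_of_disjoint hdisj _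
  have hkb : ∀ b p, bd (kill U p) = kill U (bd p) + kill U (D b p) + kill U (D (!b) p) := by
    intro b p
    rw [kill_bd, hind b, der_add, map_add]
    simp only [hD]
    have e1 := add_self (kill U (der ((A b).indicator 1) p))
    have e2 := add_self (kill U (der ((A (!b)).indicator 1) p))
    linear_combination -e1 - e2
  have hDν : ∀ b p, D b (MvPolynomial.rename ν p) = MvPolynomial.rename ν (D (!b) p) := by
    intro b p
    simp only [hD]
    rw [← rename_der]
    congr 3
    ext y
    simp only [Function.comp, Set.indicator, hA, Pi.one_apply]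
  have hDD : ∀ b n p, p ∈ Ch S n → D (!b) (D b p) = 0 := by
    intro b n p hp
    refine der_der_eq_zero ?_ hp
    intro s hs
    rcases hsep s hs with h1 | h1 <;> cases b
    · left; exact fun y hy => Set.indicator_of_notMem (h1 y hy) _
    · right; exact fun y hy => Set.indicator_of_notMem (h1 y hy) _
    · right; exact fun y hy => Set.indicator_of_notMem (h1 y hy) _
    · left; exact fun y hy => Set.indicator_of_notMem (h1 y hy) _
  have hform : ∀ b n (β β' : P Y), β ∈ Ch S n → bd β = β' + MvPolynomial.rename ν β' →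
      bd (kill U β' + kill U (D b β)) =
        kill U (bd β') + (kill U (D (!b) β') + MvPolynomial.rename ν (kill U (D (!b) β'))) := by
    intro b n β β' hβ hb
    have e1 : D b (D b β) = 0 := der_der _ _
    have e2 : bd (D b β) = D b (bd β) := bd_der _ _
    rw [map_add, hkb b β', hkb b (D b β), e1, hDD b n β hβ, e2, hb, map_add, hDν, map_add,
      rename_kill U hUν, map_zero]
    have := add_self (kill U (D b β'))
    linear_combination this
  have main : ∀ (k : ℕ) (β β' : P Y), Hemi S ν k β' → β ∈ Ch S (k + 2) →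
      bd β = β' + MvPolynomial.rename ν β' → ∀ b,
      Hemi (fun s => S s ∧ ∀ y ∈ s, y ∉ U) ν k (kill U β' + kill U (D b β)) := by
    intro k
    induction k with
    | zero =>
      intro β β' h1 h2 h3 b
      refine ⟨Submodule.add_mem _ (Ch.kill U h1.1) (Ch.kill U (Ch.der hS _ h2)), ?_⟩
      rw [hform b _ β β' h2 h3, h1.2, map_one,
        Ch.rename_zero ν (Ch.kill U (Ch.der hS _ h1.1)), add_self, add_zero]
    | succ k ih =>
      intro β β' h1 h2 h3 b
      obtain ⟨h4, β'', h5, h6⟩ := h1
      refine ⟨Submodule.add_mem _ (Ch.kill U h4) (Ch.kill U (Ch.der hS _ h2)), _,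
        ih β' β'' h5 h4 h6 (!b), ?_⟩
      rw [hform b _ β β' h2 h3, h6, map_add, map_add, rename_kill U hUν β'']
      ring
  obtain ⟨h1, β', h2, h3⟩ := h
  exact ⟨_, main k β β' h2 h1 h3 true⟩

end Crest.Agent.Mod2Chain
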