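import Crest.Agent.Lib.Mod2Chain.Subdiv

/-!
The cross-polytope: signed labels `ι × Bool`, its fundamental cycle, hemispheres, the top-cycle
lemma, the chain-level Borsuk-Ulam (Tucker / Ky Fan) theorem and Sperner's lemma.
-/

set_option autoImplicit false
set_option maxHeartbeats 400000

namespace Crest.Agent.Mod2Chain

open MvPolynomial Filter

variable {ι : Type*}

/-- the antipode on signed labels -/
def flipL (y : ι × Bool) : ι × Bool := (y.1, !y.2)

theorem flipL_invol : Function.Involutive (flipL : ι × Bool → ι × Bool) := by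
  rintro ⟨i, b⟩; simp [flipL]

/-- no complementary pair -/
def NC (s : Set (ι × Bool)) : Prop := ∀ y ∈ s, flipL y ∉ s

/-- no complementary pair, indices in `J` -/
def NCJ (J : Finset ι) (s : Set (ι × Bool)) : Prop := NC s ∧ ∀ y ∈ s, y.1 ∈ J

theorem down_NC : Down (NC : Set (ι × Bool) → Prop) :=
  fun _ _ h hs y hy hy' => hs y (h hy) (h hy')

theorem down_NCJ (J : Finset ι) : Down (NCJ J) :=
  fun s t h hs => ⟨down_NC s t h hs.1, fun y hy => hs.2 y (h hy)⟩

/-- fundamental cycle of the cross-polytope on the index set `J` -/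
noncomputable def zc (J : Finset ι) : P (ι × Bool) :=
  ∏ i ∈ J, (MvPolynomial.X (i, true) + MvPolynomial.X (i, false))

/-- the all-positive facet -/
noncomputable def plus (J : Finset ι) : (ι × Bool) →₀ ℕ := ∑ i ∈ J, Finsupp.single (i, true) 1

theorem plus_apply [DecidableEq ι] (J : Finset ι) (y : ι × Bool) :
    plus J y = if y.1 ∈ J ∧ y.2 = true then 1 else 0 := by
  obtain ⟨i, b⟩ := y
  simp only [plus, Finsupp.finsetSum_apply, Finsupp.single_apply, Prod.mk.injEq]
  cases b
  · simp
  · simp

theorem plus_le_one (J : Finset ι) (y : ι × Bool) : plus J y ≤ 1 := by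
  classical
  rw [plus_apply]; split_ifs <;> omega

theorem degree_plus (J : Finset ι) : (plus J).degree = J.card := by
  simp [plus, map_sum]

theorem mem_support_plus (J : Finset ι) (y : ι × Bool) :
    y ∈ (plus J).support ↔ y.1 ∈ J ∧ y.2 = true := by
  classical
  rw [Finsupp.mem_support_iff, plus_apply]; split_ifs with h <;> simp [h]

theorem monomial_plus (J : Finset ι) :
    (monomial (plus J) 1 : P (ι × Bool)) = ∏ i ∈ J, MvPolynomial.X (i, true) := by
  rw [plus, monomial_sum_one]; rfl

theorem NCJ_insert [DecidableEq ι] {J : Finset ι} {i : ι} (hi : i ∉ J) (b : Bool) :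
    ∀ s t : Set (ι × Bool), s = {(i, b)} → NCJ J t → NCJ (insert i J) (s ∪ t) := by
  rintro s t rfl ⟨h1, h2⟩
  refine ⟨?_, ?_⟩
  · rintro y (rfl | hy) (h | h)
    · simp [flipL] at h
    · exact hi (h2 _ h)
    · have := congrArg Prod.fst h
      simp only [flipL] at this
      exact hi (this ▸ h2 y hy)
    · exact h1 y hy h
  · rintro y (rfl | hy)
    · simp
    · exact Finset.mem_insert_of_mem (h2 y hy)

theorem zc_mem (J : Finset ι) : zc J ∈ Ch (NCJ J) J.card := by
  classical
  induction J using Finset.induction_on with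
  | empty => exact one_mem_Ch ⟨fun _ h => h.elim, fun _ h => h.elim⟩
  | insert i J hi ih =>
    rw [zc, Finset.prod_insert hi, Finset.card_insert_of_notMem hi, add_comm J.card, add_mul]
    exact Submodule.add_mem _ (Ch.mul (NCJ_insert hi true) (X_mem_Ch rfl) ih)
      (Ch.mul (NCJ_insert hi false) (X_mem_Ch rfl) ih)

theorem bd_zc (J : Finset ι) : bd (zc J) = 0 := by
  classical
  induction J using Finset.induction_on with
  | empty => simp [zc]
  | insert i J hi ih =>
    rw [zc, Finset.prod_insert hi, bd_mul, map_add, bd_X, bd_X, add_self, zero_mul, zero_add]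
    rw [zc] at ih
    rw [ih, mul_zero]

theorem rename_flipL_zc (J : Finset ι) : rename flipL (zc J) = zc J := by
  simp only [zc, map_prod, map_add, rename_X, flipL, Bool.not_true, Bool.not_false, add_comm]

theorem hemi_zc [DecidableEq ι] (J : Finset ι) :
    ∀ i ∉ J, Hemi (NCJ (insert i J)) flipL J.card (MvPolynomial.X (i, true) * zc J) := by
  induction J using Finset.induction_on with
  | empty =>
    intro i hi
    refine ⟨?_, by simp [zc]⟩
    exact Ch.mul (NCJ_insert hi true) (X_mem_Ch rfl) (zc_mem ∅)
  | insert j J hj ih =>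
    intro i hi
    rw [Finset.card_insert_of_notMem hj]
    refine ⟨?_, MvPolynomial.X (j, true) * zc J, ?_, ?_⟩
    · have := Ch.mul (NCJ_insert hi true) (X_mem_Ch rfl) (zc_mem (insert j J))
      rwa [Finset.card_insert_of_notMem hj, add_comm 1, add_assoc] at this
    · exact (ih j hj).mono fun s hs => ⟨hs.1, fun y hy => Finset.mem_insert_of_mem (hs.2 y hy)⟩
    · rw [bd_X_mul, bd_zc, mul_zero, add_zero, map_mul, rename_flipL_zc, rename_X, ← add_mul, zc,
        Finset.prod_insert hj]
      rfl

theorem coeff_plus_zc (J : Finset ι) : coeff (plus J) (zc J) = 1 := by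
  classical
  induction J using Finset.induction_on with
  | empty => simp [zc, plus]
  | insert i J hi ih =>
    rw [zc, Finset.prod_insert hi, add_mul, coeff_add, coeff_X_mul' _ (i, false), if_neg,
      add_zero, plus, Finset.sum_insert hi, coeff_X_mul]
    · exact ih
    · rw [mem_support_plus]; simp

/-- a nondegenerate top cycle of the cross-polytope contains the all-positive facet -/
theorem top_cycle [Fintype ι] {J : Finset ι} {ω : P (ι × Bool)} (hω : ω ∈ Ch (NCJ J) J.card)
    (h0 : bd ω = 0) (hd : ω ∉ Deg _) : coeff (plus J) ω ≠ 0 := by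
  classical
  have key : ∀ c : ℕ, ∀ m : (ι × Bool) →₀ ℕ, (∀ i, m i ≤ 1) → coeff m ω ≠ 0 →
      (m.support.filter (fun y => y.2 = false)).card = c → coeff (plus J) ω ≠ 0 := by
    intro c
    induction c using Nat.strong_induction_on with
    | _ c ih =>
    intro m hsq hm hc
    obtain ⟨⟨h1, h2⟩, h3⟩ := hω m hm
    have hcard : m.support.card = J.card := by
      rw [← h3, Finsupp.degree_apply, Finset.card_eq_sum_ones]
      refine Finset.sum_congr rfl fun y hy => ?_
      have := Finsupp.mem_support_iff.1 hy
      have := hsq y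
      omega
    have hinj : Set.InjOn Prod.fst (m.support : Set (ι × Bool)) := by
      rintro ⟨i, b⟩ hy ⟨i', b'⟩ hy' (rfl : i = i')
      by_contra hne
      apply h1 _ hy
      have : b' = !b := by
        cases b <;> cases b' <;> simp_all
      rw [this] at hy'; exact hy'
    have hsurj : ∀ i ∈ J, ∃ u ∈ m.support, u.1 = i := by
      intro i hi
      have := Finset.surj_on_of_inj_on_of_card_le (s := m.support) (t := J) (fun y _ => y.1)
        (fun y hy => h2 y hy) (fun a₁ a₂ ha₁ ha₂ h => hinj ha₁ ha₂ h) hcard.ge i hi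
      obtain ⟨u, hu, rfl⟩ := this
      exact ⟨u, hu, rfl⟩
    by_cases hne : ∃ d ∈ m.support, d.2 = false
    · obtain ⟨d, hd, hdf⟩ := hne
      obtain ⟨v, hv, hm'⟩ := ridge h0 hsq hm hd
      set m' := m - Finsupp.single d 1 + Finsupp.single v 1 with hm'def
      have hvd : v ≠ d := fun h => hv (h ▸ hd)
      have hv0 : m v = 0 := Finsupp.notMem_support_iff.1 hv
      have happ : ∀ y, m' y = if y = v then 1 else if y = d then 0 else m y := by
        intro y
        simp only [hm'def, Finsupp.add_apply, Finsupp.coe_tsub, Pi.sub_apply, Finsupp.single_apply]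
        have := hsq d
        by_cases e1 : y = v
        · subst e1; simp [hv0]
        · by_cases e2 : y = d
          · subst e2; simp [e1, Ne.symm e1]; omega
          · simp [e1, e2, Ne.symm e1, Ne.symm e2]
      obtain ⟨⟨h4, h5⟩, -⟩ := hω m' hm'
      have hvm' : v ∈ (m'.support : Set (ι × Bool)) := by
        simp [happ]
      obtain ⟨u, hu, huv⟩ := hsurj v.1 (h5 v hvm')
      have huv' : u = flipL v := by
        obtain ⟨i, b⟩ := u
        obtain ⟨i', b'⟩ := v
        simp only at huv
        subst huv
        have : b ≠ b' := fun h => hv (h ▸ hu)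
        cases b <;> cases b' <;> simp_all [flipL]
      have hud : u = d := by
        by_contra hne
        apply h4 v hvm'
        rw [← huv']
        have : u ≠ v := fun h => hv (h ▸ hu)
        simp only [Finset.mem_coe, Finsupp.mem_support_iff, happ, if_neg this, if_neg hne]
        exact Finsupp.mem_support_iff.1 hu
      have hvt : v.2 = true := by
        rw [← hud, huv'] at hdf
        simpa [flipL] using hdf
      refine ih _ ?_ m' ?_ hm' rfl
      · rw [← hc]
        apply Finset.card_lt_card
        refine ⟨?_, ?_⟩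
        · intro y hy
          simp only [Finset.mem_filter, Finsupp.mem_support_iff, happ] at hy ⊢
          refine ⟨?_, hy.2⟩
          have e1 : y ≠ v := by
            rintro rfl; rw [hvt] at hy; exact absurd hy.2 (by simp)
          rw [if_neg e1] at hy
          split_ifs at hy with e2
          · exact absurd rfl hy.1
          · exact hy.1
        · intro hsub
          have := hsub (Finset.mem_filter.2 ⟨hd, hdf⟩)
          simp [happ, Ne.symm hvd] at this
      · intro y; rw [happ]; have := hsq y; split_ifs <;> omega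
    · push Not at hne
      have : m = plus J := by
        ext y
        rw [plus_apply]
        split_ifs with h
        · obtain ⟨u, hu, huy⟩ := hsurj y.1 h.1
          have : u = y := by
            have h7 := hne u hu
            exact Prod.ext huy (by rw [h.2]; simpa using h7)
          subst this
          have := Finsupp.mem_support_iff.1 hu
          have := hsq u
          omega
        · by_contra h'
          have hy : y ∈ m.support := Finsupp.mem_support_iff.2 h'
          exact h ⟨h2 y hy, by simpa using hne y hy⟩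
      rwa [← this]
  obtain ⟨m, h1, h2⟩ := exists_sq_of_notMem_Deg hd
  exact key _ m h1 h2 rfl

theorem coeff_eq_zero_of_Deg {Y : Type*} {p : P Y} (hp : p ∈ Deg Y) {m : Y →₀ ℕ}
    (hm : ∀ i, m i ≤ 1) : coeff m p = 0 := by
  by_contra h
  obtain ⟨i, hi⟩ := hp m h
  have := hm i; omega

theorem top_cycle_eq [Fintype ι] {J : Finset ι} {ω : P (ι × Bool)} (hω : ω ∈ Ch (NCJ J) J.card)
    (h0 : bd ω = 0) (h1 : coeff (plus J) ω = 1) : ω + zc J ∈ Deg _ := by
  by_contra hd
  apply top_cycle (Submodule.add_mem _ hω (zc_mem J)) (by rw [map_add, h0, bd_zc, add_zero]) hd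
  rw [coeff_add, h1, coeff_plus_zc]; decide

/-- the coefficient of the positive facet in a boundary vanishes -/
theorem coeff_plus_bd [Fintype ι] {y : P (ι × Bool)} {n : ℕ}
    (hy : y ∈ Ch (fun s => ¬ ((∀ i, (i, true) ∈ s) ∧ ∃ i, (i, false) ∈ s)) n) :
    coeff (plus Finset.univ) (bd y) = 0 := by
  classical
  rw [coeff_bd]
  refine Finset.sum_eq_zero ?_
  rintro ⟨i, b⟩ -
  cases b
  · have : coeff (plus Finset.univ + Finsupp.single (i, false) 1) y = 0 := by
      by_contra h
      apply (hy _ h).1
      refine ⟨fun j => ?_, i, ?_⟩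
      · simp [plus_apply]
      · simp
    rw [this, zero_mul]
  · have : plus (Finset.univ : Finset ι) (i, true) = 1 := by simp [plus_apply]
    rw [this]
    have : ((1 : ℕ) : ZMod 2) + 1 = 0 := by decide
    rw [this, mul_zero]

theorem coeff_plus_eq_zero [Fintype ι] {p : P (ι × Bool)} {n : ℕ}
    (hp : p ∈ Ch (fun s => ∃ i, (i, true) ∉ s) n) : coeff (plus Finset.univ) p = 0 := by
  by_contra h
  obtain ⟨i, hi⟩ := (hp _ h).1
  apply hi
  rw [Finset.mem_coe, mem_support_plus]; simp

/-- the vertices of the cross-polytope in `ι → ℝ` -/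
noncomputable def pt [DecidableEq ι] (y : ι × Bool) : ι → ℝ :=
  Pi.single y.1 (if y.2 then 1 else -1)

theorem pt_flipL [DecidableEq ι] (y : ι × Bool) : pt (flipL y) = - pt y := by
  obtain ⟨i, b⟩ := y
  cases b <;> simp [pt, flipL, Pi.single_neg]

theorem hull_pt_ne_zero [Fintype ι] [DecidableEq ι] {s : Set (ι × Bool)} (hs : NC s) :
    convexHull ℝ (pt '' s) ⊆ {x | x ≠ 0} := by
  classical
  let N : (ι → ℝ) →ₗ[ℝ] ℝ := ∑ i, (if (i, true) ∈ s then (1 : ℝ) else -1) • LinearMap.proj i
  have h1 : convexHull ℝ (pt '' s) ⊆ {x | N x = 1} := by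
    refine convexHull_min ?_ (convex_hyperplane N.isLinear 1)
    rintro _ ⟨⟨i, b⟩, hy, rfl⟩
    simp only [N, Set.mem_ofPred_eq, LinearMap.sum_apply, LinearMap.smul_apply,
      LinearMap.proj_apply, smul_eq_mul]
    rw [Finset.sum_eq_single i]
    · cases b
      · have : (i, true) ∉ s := hs _ hy
        simp [pt, this]
      · simp [pt, hy]
    · intro j _ hj; simp [pt, Pi.single_eq_of_ne hj]
    · simp
  intro x hx h0
  have := h1 hx
  rw [h0] at this
  simp at this

/-- Chain-level Borsuk-Ulam / Tucker: an odd labelling without small complementary edges sends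
the subdivided cross-polytope to a chain containing the positive facet. -/
theorem tucker [Fintype ι] [DecidableEq ι] [Nonempty ι] {𝒰 : Set (Set (ι → ℝ))}
    (ho : ∀ U ∈ 𝒰, IsOpen U) (hcov : {x | x ≠ 0} ⊆ ⋃₀ 𝒰) (κ : (ι → ℝ) → ι × Bool)
    (hodd : ∀ x, x ≠ 0 → κ (-x) = flipL (κ x)) (hnc : ∀ U ∈ 𝒰, NC (κ '' U)) :
    ∀ᶠ k in atTop, coeff (plus Finset.univ)
      (rename κ ((sd ^ k) (rename pt (zc (Finset.univ : Finset ι))))) = 1 := by
  obtain ⟨i⟩ := ‹Nonempty ι›
  have hi : i ∉ (Finset.univ : Finset ι).erase i := by simp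
  have h1 := hemi_zc _ i hi
  have h2 : Hemi (fun s : Set (ι → ℝ) => convexHull ℝ s ⊆ {x | x ≠ 0}) (fun x => -x) _ _ :=
    h1.rename pt (fun s hs => hull_pt_ne_zero hs.1) (fun s _ x _ => pt_flipL x)
  filter_upwards [h2.eventually_small ho hcov] with k hk
  have h3 : Hemi (NCJ Finset.univ) flipL _ _ := hk.rename κ
    (fun s hs => ⟨by
      rcases s.eq_empty_or_nonempty with rfl | hne
      · simp [NC]
      · obtain ⟨U, hU, h⟩ := hs.2 hne
        exact down_NC _ _ (Set.image_mono h) (hnc U hU), fun _ _ => Finset.mem_univ _⟩)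
    (fun s hs x hx => hodd x (hs.1 (subset_convexHull ℝ s hx)))
  have h4 := h3.notMem_Deg (down_NCJ _) flipL_invol (fun s hs => hs.1)
  have h5 := h3.cycle flipL_invol
  have hcard : ((Finset.univ : Finset ι).erase i).card + 1 = (Finset.univ : Finset ι).card :=
    Finset.card_erase_add_one (Finset.mem_univ i)
  have h6 := h3.mem
  rw [hcard] at h6
  have hfl : ∀ s : Set (ι × Bool), NCJ Finset.univ s → NCJ Finset.univ (flipL '' s) := by
    intro s hs
    refine ⟨?_, fun _ _ => Finset.mem_univ _⟩
    rintro _ ⟨y, hy, rfl⟩ ⟨y', hy', h⟩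
    rw [flipL_invol.injective h] at hy'
    exact hs.1 y hy hy'
  have h7 := top_cycle (Submodule.add_mem _ h6 (Ch.rename flipL hfl h6)) h5 h4
  rw [← zmod2_eq_one h7]
  congr 1
  rw [rename_rename, show flipL ∘ κ = fun x => flipL (κ x) from rfl,
    ← rename_congr hk.mem (f := κ ∘ fun x => -x)
      (fun s hs x hx => hodd x (hs.1 (subset_convexHull ℝ s hx))),
    ← rename_rename, rename_neg_sd_pow, ← map_add, ← map_add]
  congr 2
  rw [rename_rename, show (fun x : ι → ℝ => -x) ∘ pt = pt ∘ flipL from
    funext fun y => (pt_flipL y).symm, ← rename_rename, ← map_add]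
  congr 1
  rw [map_mul, rename_flipL_zc, rename_X, ← add_mul, zc, zc,
    ← Finset.mul_prod_erase _ _ (Finset.mem_univ i)]
  rfl

/-- Sperner's lemma -/
theorem sperner {E : Type*} [NormedAddCommGroup E] [NormedSpace ℝ E] (J : Finset ι)
    (q : ι × Bool → E) (lab : E → ι × Bool)
    (hlab : ∀ s : Set (ι × Bool), (∀ y ∈ s, y.1 ∈ J ∧ y.2 = true) →
      ∀ x ∈ convexHull ℝ (q '' s), lab x ∈ s) (k : ℕ) :
    coeff (plus J) (rename lab ((sd ^ k) (rename q (monomial (plus J) 1)))) = 1 := by
  have h := carrier_deg (S := fun s => ∀ y ∈ s, y.1 ∈ J ∧ y.2 = true)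
    (fun s t h hs y hy => hs y (h hy)) id
    ((rename lab : P E →ₐ[ZMod 2] P (ι × Bool)).toLinearMap ∘ₗ
      (sd ^ k : Module.End (ZMod 2) (P E)) ∘ₗ
      (rename q : P (ι × Bool) →ₐ[ZMod 2] P E).toLinearMap + LinearMap.id)
    (by simp [add_self]) (fun p => by simp [bd_sd_pow, bd_rename])
    (fun m hm => by
      simp only [LinearMap.add_apply, LinearMap.comp_apply, AlgHom.toLinearMap_apply,
        LinearMap.id_apply, Set.image_id]
      have h2 := monomial_mem_Ch (S := fun t => t ⊆ (m.support : Set (ι × Bool))) subset_rfl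
      refine Submodule.add_mem _ (Ch.rename lab ?_ (sd_pow_mem_convex
        (convex_convexHull ℝ (q '' (m.support : Set (ι × Bool)))) (Ch.rename q ?_ h2) k)) h2
      · rintro s hs _ ⟨x, hx, rfl⟩
        exact hlab _ hm x (hs hx)
      · exact fun s hs => (Set.image_mono hs).trans (subset_convexHull ℝ _))
    (plus J) (fun y hy => (mem_support_plus J y).1 hy)
  have h1 := coeff_eq_zero_of_Deg h (plus_le_one J)
  simp only [LinearMap.add_apply, LinearMap.comp_apply, AlgHom.toLinearMap_apply,
    LinearMap.id_apply, coeff_add] at h1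
  classical
  rw [coeff_monomial, if_pos rfl] at h1
  revert h1
  generalize coeff (plus J) (rename lab ((sd ^ k) (rename q (monomial (plus J) 1)))) = a
  revert a; decide

end Crest.Agent.Mod2Chain
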