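import Crest.Agent.Lib.Mod2Chain.Carrier

/-!
Barycentric subdivision of mod-2 chains in a real normed space, the small-simplex lemma,
acyclicity of small chains in a convex set, and homotopy invariance.
-/

set_option autoImplicit false
set_option maxHeartbeats 400000

namespace Crest.Agent.Mod2Chain

open MvPolynomial Filter

variable {E : Type*} [NormedAddCommGroup E] [NormedSpace ℝ E] {X : Type*}

/-- barycentre of a multiset of points -/
noncomputable def bary (m : E →₀ ℕ) : E :=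
  (m.degree : ℝ)⁻¹ • m.sum (fun x k => (k : ℝ) • x)

noncomputable def sdAux : ℕ → P E →ₗ[ZMod 2] P E
  | 0 => LinearMap.id
  | n + 1 => onMon (fun m => MvPolynomial.X (bary m) * sdAux n (bd (monomial m 1)))

/-- barycentric subdivision -/
noncomputable def sd : Module.End (ZMod 2) (P E) := onMon (fun m => sdAux m.degree (monomial m 1))

theorem sd_eq_aux {n : ℕ} {S : Set E → Prop} {p : P E} (hp : p ∈ Ch S n) : sd p = sdAux n p := by
  refine Sup.map_eq _ _ ?_ hp
  rintro m ⟨-, h2⟩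
  rw [sd, onMon_monomial, h2]

theorem down_true : Down (fun _ : Set X => True) := fun _ _ _ _ => trivial

theorem bd_monomial_mem {S : Set X → Prop} (hS : Down S) {m : X →₀ ℕ} (hm : S m.support) {n : ℕ}
    (h : m.degree = n + 1) : bd (monomial m 1 : P X) ∈ Ch S n := by
  apply Ch.bd hS
  rw [← h]; exact monomial_mem_Ch hm

theorem sd_monomial {m : E →₀ ℕ} {n : ℕ} (h : m.degree = n + 1) :
    sd (monomial m 1) = MvPolynomial.X (bary m) * sd (bd (monomial m 1)) := by
  rw [sd_eq_aux (bd_monomial_mem down_true trivial h), sd, onMon_monomial, h, sdAux, onMon_monomial]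

theorem sd_zero_deg {S : Set E → Prop} {p : P E} (hp : p ∈ Ch S 0) : sd p = p := by
  rw [sd_eq_aux hp]; rfl

@[simp] theorem sd_one : sd (1 : P E) = 1 := sd_zero_deg (one_mem_Ch (S := fun _ => True) trivial)

theorem map_eq_of_monomial {M : Type*} [AddCommGroup M] [Module (ZMod 2) M]
    (L L' : P X →ₗ[ZMod 2] M) (h : ∀ m, L (monomial m 1) = L' (monomial m 1)) (p : P X) :
    L p = L' p := Sup.map_eq L L' (fun m _ => h m) (mem_Sup_true p)

theorem bd_sd (p : P E) : bd (sd p) = sd (bd p) := by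
  have key : ∀ n, ∀ p ∈ Ch (fun _ : Set E => True) n, bd (sd p) = sd (bd p) := by
    intro n
    induction n with
    | zero =>
      intro p hp
      have : bd p = 0 := Ch.der_zero _ hp
      rw [sd_zero_deg hp, this, map_zero]
    | succ n ih =>
      intro p hp
      refine Sup.induction (motive := fun p => bd (sd p) = sd (bd p)) (by simp) ?_ ?_ hp
      · intro p q h1 h2; simp only [map_add, h1, h2]
      rintro m ⟨-, h2⟩
      rw [sd_monomial h2, bd_X_mul, ih _ (bd_monomial_mem down_true trivial h2), bd_bd, map_zero,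
        mul_zero, add_zero]
  refine Sup.induction (motive := fun p => bd (sd p) = sd (bd p)) (by simp) ?_
    (fun m _ => key _ _ (monomial_mem_Ch trivial)) (mem_Sup_true p)
  intro p q h1 h2; simp only [map_add, h1, h2]

theorem bary_mapDomain {E' : Type*} [NormedAddCommGroup E'] [NormedSpace ℝ E'] (f : E →ₗ[ℝ] E')
    (m : E →₀ ℕ) : bary (m.mapDomain f) = f (bary m) := by
  rw [bary, bary, degree_mapDomain', map_smul, Finsupp.sum_mapDomain_index, map_finsuppSum]
  · simp only [map_smul]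
  · intro b; simp
  · intro b m₁ m₂; rw [Nat.cast_add, add_smul]

theorem rename_sd {E' : Type*} [NormedAddCommGroup E'] [NormedSpace ℝ E'] (f : E →ₗ[ℝ] E')
    (p : P E) : rename f (sd p) = sd (rename f p) := by
  have key : ∀ n, ∀ p ∈ Ch (fun _ : Set E => True) n, rename f (sd p) = sd (rename f p) := by
    intro n
    induction n with
    | zero =>
      intro p hp
      rw [sd_zero_deg hp, sd_zero_deg (Ch.rename (S' := fun _ => True) f (fun _ _ => trivial) hp)]
    | succ n ih =>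
      intro p hp
      refine Sup.map_eq ((rename f : P E →ₐ[ZMod 2] P E').toLinearMap ∘ₗ sd)
        (sd ∘ₗ (rename f : P E →ₐ[ZMod 2] P E').toLinearMap) ?_ hp
      rintro m ⟨-, h2⟩
      simp only [LinearMap.comp_apply, AlgHom.toLinearMap_apply]
      rw [sd_monomial h2, map_mul, rename_X, ih _ (bd_monomial_mem down_true trivial h2),
        ← bd_rename, rename_monomial,
        sd_monomial (m := m.mapDomain f) (n := n) (by rw [degree_mapDomain', h2]), bary_mapDomain]
  exact map_eq_of_monomial ((rename f : P E →ₐ[ZMod 2] P E').toLinearMap ∘ₗ sd)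
    (sd ∘ₗ (rename f : P E →ₐ[ZMod 2] P E').toLinearMap)
    (fun m => key _ _ (monomial_mem_Ch trivial)) p

theorem sd_deg {p : P E} (hp : p ∈ Deg E) : sd p = 0 := by
  have key : ∀ n, ∀ m : E →₀ ℕ, m.degree = n → (∃ i, 2 ≤ m i) → sd (monomial m 1) = 0 := by
    intro n
    induction n with
    | zero =>
      rintro m hm ⟨i, hi⟩
      rw [Finsupp.degree_eq_zero_iff] at hm
      subst hm; simp at hi
    | succ n ih =>
      intro m hm hd
      rw [sd_monomial hm]
      have h1 : bd (monomial m 1 : P E) ∈ Ch (fun _ => True) n :=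
        bd_monomial_mem down_true trivial hm
      have h2 : bd (monomial m 1 : P E) ∈ Deg E := Deg.bd (monomial_mem_Sup hd 1)
      have h3 : bd (monomial m 1 : P E) ∈ Sup (fun m => m.degree = n ∧ ∃ i, 2 ≤ m i) :=
        fun m' hm' => ⟨(h1 m' hm').2, h2 m' hm'⟩
      have := Sup.map_eq sd 0 (fun m' hm' => ih m' hm'.1 hm'.2) h3
      rw [this, LinearMap.zero_apply, mul_zero]
  exact Sup.map_eq sd 0 (fun m hm => key _ m rfl hm) hp

theorem sd_X (x : E) : sd (MvPolynomial.X x : P E) = MvPolynomial.X x := by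
  have h : (Finsupp.single x 1 : E →₀ ℕ).degree = 0 + 1 := by simp
  have h2 : bd (monomial (Finsupp.single x 1) 1 : P E) = 1 := bd_X x
  show sd (monomial (Finsupp.single x 1) 1) = _
  rw [sd_monomial h, h2, sd_one, mul_one, bary]
  simp

theorem degree_cast (m : X →₀ ℕ) : (m.degree : ℝ) = ∑ x ∈ m.support, (m x : ℝ) := by
  rw [Finsupp.degree_apply]; push_cast; rfl

theorem bary_mem {m : E →₀ ℕ} {n : ℕ} (h : m.degree = n + 1) :
    bary m ∈ convexHull ℝ (m.support : Set E) := by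
  have hpos : (0 : ℝ) < m.degree := by rw [h]; positivity
  rw [bary, Finsupp.sum, Finset.smul_sum]
  simp only [smul_smul]
  refine (convex_convexHull ℝ _).sum_mem (fun x _ => by positivity) ?_
    fun x hx => subset_convexHull ℝ _ hx
  rw [← Finset.mul_sum, ← degree_cast, inv_mul_cancel₀ hpos.ne']

theorem dist_bary_le {m : E →₀ ℕ} {n : ℕ} (h : m.degree = n + 1) {d : ℝ} (hd : 0 ≤ d)
    (hm : ∀ x ∈ m.support, ∀ y ∈ m.support, dist x y ≤ d) {y : E} (hy : y ∈ m.support) :
    dist y (bary m) ≤ (1 - 1 / (n + 1)) * d := by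
  classical
  have hpos : (0 : ℝ) < m.degree := by rw [h]; positivity
  have h1 : y - bary m = (m.degree : ℝ)⁻¹ • ∑ x ∈ m.support, (m x : ℝ) • (y - x) := by
    simp only [smul_sub, Finset.sum_sub_distrib, ← Finset.sum_smul, ← degree_cast, smul_smul,
      inv_mul_cancel₀ hpos.ne', one_smul]
    rfl
  rw [dist_eq_norm, h1, norm_smul, norm_inv, Real.norm_natCast]
  have h2 : ‖∑ x ∈ m.support, (m x : ℝ) • (y - x)‖ ≤ (m.degree - 1) * d := by
    rw [← Finset.add_sum_erase _ _ hy, sub_self, smul_zero, zero_add]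
    calc ‖∑ x ∈ m.support.erase y, (m x : ℝ) • (y - x)‖
        ≤ ∑ x ∈ m.support.erase y, (m x : ℝ) * d := by
          refine norm_sum_le_of_le _ fun x hx => ?_
          rw [norm_smul, Real.norm_natCast, ← dist_eq_norm]
          exact mul_le_mul_of_nonneg_left (hm y hy x (Finset.mem_of_mem_erase hx)) (by positivity)
      _ = (m.degree - m y) * d := by
          rw [← Finset.sum_mul, degree_cast, ← Finset.add_sum_erase _ _ hy]; ring
      _ ≤ (m.degree - 1) * d := by
          have : (1 : ℝ) ≤ m y := by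
            exact_mod_cast Nat.one_le_iff_ne_zero.2 (Finsupp.mem_support_iff.1 hy)
          gcongr
  calc (m.degree : ℝ)⁻¹ * ‖∑ x ∈ m.support, (m x : ℝ) • (y - x)‖
      ≤ (m.degree : ℝ)⁻¹ * ((m.degree - 1) * d) := by gcongr
    _ = (1 - 1 / (n + 1)) * d := by
      rw [h]; push_cast; field_simp

/-- sets inside `W` of diameter at most `d` -/
def Sm (W : Set E) (d : ℝ) (s : Set E) : Prop := s ⊆ W ∧ ∀ x ∈ s, ∀ y ∈ s, dist x y ≤ d

omit [NormedSpace ℝ E] in
theorem down_Sm (W : Set E) (d : ℝ) : Down (Sm W d) :=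
  fun _ _ h h' => ⟨h.trans h'.1, fun x hx y hy => h'.2 x (h hx) y (h hy)⟩

theorem sd_Sm (N : ℕ) {d : ℝ} (hd : 0 ≤ d) : ∀ n ≤ N + 1, ∀ W : Set E, Convex ℝ W →
    ∀ p ∈ Ch (Sm W d) n, sd p ∈ Ch (Sm W ((1 - 1 / (N + 1)) * d)) n := by
  have hθ : (0 : ℝ) ≤ 1 - 1 / (N + 1) := by
    rw [sub_nonneg, div_le_one (by positivity)]; linarith [Nat.cast_nonneg (α := ℝ) N]
  intro n
  induction n with
  | zero =>
    intro _ W _ p hp
    rw [sd_zero_deg hp]
    intro m hm
    obtain ⟨h1, h2⟩ := hp m hm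
    refine ⟨⟨h1.1, ?_⟩, h2⟩
    rw [Finsupp.degree_eq_zero_iff] at h2
    subst h2; simp
  | succ n ih =>
    intro hn W hW p hp
    refine Sup.map_mem sd _ ?_ hp
    rintro m ⟨h1, h2⟩
    rw [sd_monomial h2, add_comm n 1]
    have h3 : bd (monomial m 1 : P E) ∈ Ch (Sm (convexHull ℝ (m.support : Set E)) d) n :=
      bd_monomial_mem (down_Sm _ _) ⟨subset_convexHull ℝ _, h1.2⟩ h2
    have h4 := ih (by omega) _ (convex_convexHull ℝ _) _ h3
    have hsub : convexHull ℝ (m.support : Set E) ⊆ W := convexHull_min h1.1 hW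
    have hball : convexHull ℝ (m.support : Set E) ⊆
        Metric.closedBall (bary m) ((1 - 1 / (N + 1)) * d) := by
      refine convexHull_min (fun y hy => ?_) (convex_closedBall _ _)
      refine (dist_bary_le h2 hd h1.2 hy).trans (mul_le_mul_of_nonneg_right ?_ hd)
      have : (n : ℝ) + 1 ≤ N + 1 := by exact_mod_cast hn
      gcongr
    refine Ch.mul (S₁ := fun s => s = {bary m}) ?_ (X_mem_Ch rfl) h4
    rintro s t rfl ⟨h5, h6⟩
    refine ⟨Set.union_subset (Set.singleton_subset_iff.2 (hsub (bary_mem h2))) (h5.trans hsub), ?_⟩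
    rintro x (rfl | hx) y (rfl | hy)
    · rw [dist_self]; positivity
    · rw [dist_comm]; exact hball (h5 hy)
    · exact hball (h5 hx)
    · exact h6 x hx y hy

theorem sd_pow_Sm (N : ℕ) {d : ℝ} (hd : 0 ≤ d) {n : ℕ} (hn : n ≤ N + 1) {W : Set E}
    (hW : Convex ℝ W) {p : P E} (hp : p ∈ Ch (Sm W d) n) (k : ℕ) :
    (sd ^ k) p ∈ Ch (Sm W ((1 - 1 / (N + 1)) ^ k * d)) n := by
  have hθ : (0 : ℝ) ≤ 1 - 1 / (N + 1) := by
    rw [sub_nonneg, div_le_one (by positivity)]; linarith [Nat.cast_nonneg (α := ℝ) N]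
  induction k with
  | zero => simpa using hp
  | succ k ih =>
    rw [pow_succ' sd, Module.End.mul_apply, pow_succ', mul_assoc]
    exact sd_Sm N (by positivity) n hn W hW _ ih

theorem bd_sd_pow (k : ℕ) (p : P E) : bd ((sd ^ k) p) = (sd ^ k) (bd p) := by
  induction k with
  | zero => simp
  | succ k ih => rw [pow_succ', Module.End.mul_apply, Module.End.mul_apply, bd_sd, ih]

theorem rename_sd_pow {E' : Type*} [NormedAddCommGroup E'] [NormedSpace ℝ E'] (f : E →ₗ[ℝ] E')
    (k : ℕ) (p : P E) : rename f ((sd ^ k) p) = (sd ^ k) (rename f p) := by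
  induction k with
  | zero => simp
  | succ k ih => rw [pow_succ', Module.End.mul_apply, pow_succ', Module.End.mul_apply, rename_sd, ih]

theorem rename_neg_sd_pow (k : ℕ) (p : P E) :
    rename (fun x : E => -x) ((sd ^ k) p) = (sd ^ k) (rename (fun x : E => -x) p) :=
  rename_sd_pow (-LinearMap.id : E →ₗ[ℝ] E) k p

@[simp] theorem sd_pow_one (k : ℕ) : (sd ^ k) (1 : P E) = 1 := by
  induction k with
  | zero => simp
  | succ k ih => rw [pow_succ', Module.End.mul_apply, ih, sd_one]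

theorem sd_pow_X (k : ℕ) (x : E) : (sd ^ k) (MvPolynomial.X x : P E) = MvPolynomial.X x := by
  induction k with
  | zero => simp
  | succ k ih => rw [pow_succ', Module.End.mul_apply, ih, sd_X]

theorem sd_pow_deg {k : ℕ} (hk : 1 ≤ k) {p : P E} (hp : p ∈ Deg E) : (sd ^ k) p = 0 := by
  obtain ⟨k, rfl⟩ := Nat.exists_eq_add_of_le' hk
  rw [pow_succ, Module.End.mul_apply, sd_deg hp, map_zero]

theorem sd_mem_convex {W : Set E} (hW : Convex ℝ W) :
    ∀ n, ∀ p ∈ Ch (fun s => s ⊆ W) n, sd p ∈ Ch (fun s => s ⊆ W) n := by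
  intro n
  induction n with
  | zero => intro p hp; rwa [sd_zero_deg hp]
  | succ n ih =>
    intro p hp
    refine Sup.map_mem sd _ ?_ hp
    rintro m ⟨h1, h2⟩
    rw [sd_monomial h2, add_comm n 1]
    refine Ch.mul (S₁ := fun s => s = {bary m}) ?_ (X_mem_Ch rfl)
      (ih _ (bd_monomial_mem (down_subset W) h1 h2))
    rintro s t rfl ht
    exact Set.union_subset (Set.singleton_subset_iff.2 (convexHull_min h1 hW (bary_mem h2))) ht

theorem sd_pow_mem_convex {W : Set E} (hW : Convex ℝ W) {n : ℕ} {p : P E}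
    (hp : p ∈ Ch (fun s => s ⊆ W) n) (k : ℕ) : (sd ^ k) p ∈ Ch (fun s => s ⊆ W) n := by
  induction k with
  | zero => simpa using hp
  | succ k ih => rw [pow_succ', Module.End.mul_apply]; exact sd_mem_convex hW n _ ih

/-- sets contained in a member of the family `𝒰` -/
def Small (𝒰 : Set (Set X)) (s : Set X) : Prop := s.Nonempty → ∃ U ∈ 𝒰, s ⊆ U

theorem down_Small (𝒰 : Set (Set X)) : Down (Small 𝒰) := by
  intro s t h hs ht
  obtain ⟨U, hU, h1⟩ := hs (ht.mono h)
  exact ⟨U, hU, h.trans h1⟩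

theorem eventually_small {𝒰 : Set (Set E)} (ho : ∀ U ∈ 𝒰, IsOpen U) {C : Set E} (hC : IsCompact C)
    (hconv : Convex ℝ C) (hcov : C ⊆ ⋃₀ 𝒰) (N : ℕ) :
    ∀ᶠ k in atTop, ∀ n ≤ N, ∀ p ∈ Ch (fun s => s ⊆ C) n,
      (sd ^ k) p ∈ Ch (fun s => s ⊆ C ∧ Small 𝒰 s) n := by
  obtain ⟨δ, hδ, hL⟩ := lebesgue_number_lemma_of_metric_sUnion hC ho hcov
  have hθ : (0 : ℝ) ≤ 1 - 1 / (N + 1) := by
    rw [sub_nonneg, div_le_one (by positivity)]; linarith [Nat.cast_nonneg (α := ℝ) N]
  have hθ1 : (1 - 1 / (N + 1) : ℝ) < 1 := by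
    have : (0 : ℝ) < 1 / (N + 1) := by positivity
    linarith
  have hlim := (tendsto_pow_atTop_nhds_zero_of_lt_one hθ hθ1).mul_const (Metric.diam C)
  rw [zero_mul] at hlim
  filter_upwards [hlim.eventually (gt_mem_nhds hδ)] with k hk n hn p hp
  have h1 : p ∈ Ch (Sm C (Metric.diam C)) n :=
    Ch.mono (fun s hs => ⟨hs, fun x hx y hy =>
      Metric.dist_le_diam_of_mem hC.isBounded (hs hx) (hs hy)⟩) hp
  refine Ch.mono ?_ (sd_pow_Sm N Metric.diam_nonneg (by omega) hconv h1 k)
  rintro s ⟨h2, h3⟩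
  refine ⟨h2, fun ⟨x, hx⟩ => ?_⟩
  obtain ⟨U, hU, h4⟩ := hL x (h2 hx)
  exact ⟨U, hU, fun y hy => h4 ((h3 y hy x hx).trans_lt hk)⟩

theorem eventually_small' {𝒰 : Set (Set E)} (ho : ∀ U ∈ 𝒰, IsOpen U) {W : Set E}
    (hcov : W ⊆ ⋃₀ 𝒰) {n : ℕ} {p : P E} (hp : p ∈ Ch (fun s => convexHull ℝ s ⊆ W) n) :
    ∀ᶠ k in atTop, (sd ^ k) p ∈ Ch (fun s => convexHull ℝ s ⊆ W ∧ Small 𝒰 s) n := by
  refine Sup.induction (motive := fun p => ∀ᶠ k in atTop,
    (sd ^ k) p ∈ Ch (fun s => convexHull ℝ s ⊆ W ∧ Small 𝒰 s) n) ?_ ?_ ?_ hp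
  · exact Eventually.of_forall fun k => by simp
  · intro p q hp hq
    filter_upwards [hp, hq] with k h1 h2
    rw [map_add]; exact Submodule.add_mem _ h1 h2
  · rintro m ⟨h1, h2⟩
    have hC : IsCompact (convexHull ℝ (m.support : Set E)) :=
      (m.support.finite_toSet).isCompact_convexHull ℝ
    filter_upwards [eventually_small ho hC (convex_convexHull ℝ _) (h1.trans hcov) n] with k hk
    refine Ch.mono ?_ (hk n le_rfl _ (h2 ▸ monomial_mem_Ch (subset_convexHull ℝ _)))
    rintro s ⟨h3, h4⟩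
    exact ⟨(convexHull_min h3 (convex_convexHull ℝ _)).trans h1, h4⟩

/-- small chains in a convex set are acyclic -/
theorem acyc_small {𝒰 : Set (Set E)} (ho : ∀ U ∈ 𝒰, IsOpen U) (hc : ∀ U ∈ 𝒰, Convex ℝ U)
    {W : Set E} (hW : Convex ℝ W) (hne : W.Nonempty) (hcov : W ⊆ ⋃₀ 𝒰) :
    Acyc (Ch (fun s => s ⊆ W ∧ Small 𝒰 s)) := by
  intro n z hz h0
  obtain ⟨y0, hy0, hb⟩ := acyc_subset hne n z (Ch.mono (fun s hs => hs.1) hz) h0
  obtain ⟨k, hk⟩ := (eventually_small' ho hcov
    (Ch.mono (fun s hs => convexHull_min hs hW) hy0)).exists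
  have hdown : Down (fun s : Set E => s ⊆ W ∧ Small 𝒰 s) :=
    fun s t h hs => ⟨h.trans hs.1, down_Small 𝒰 s t h hs.2⟩
  obtain ⟨y1, hy1, hb1⟩ := carrier_cycle hdown (fun s n => Ch (fun t => t ⊆ convexHull ℝ s) n)
    (fun s t n _ hts p hp => Ch.mono (fun u hu => hu.trans (convexHull_mono hts)) hp)
    (fun s _ hs => acyc_subset (hs.mono (subset_convexHull ℝ s)))
    (LinearMap.id + (sd ^ k : Module.End (ZMod 2) (P E))) (by simp [add_self]) n
    (fun p => by simp [bd_sd_pow])
    (fun m _ _ => by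
      simp only [LinearMap.add_apply, LinearMap.id_apply]
      have := monomial_mem_Ch (S := fun t => t ⊆ convexHull ℝ (m.support : Set E))
        (subset_convexHull ℝ _)
      exact Submodule.add_mem _ this (sd_pow_mem_convex (convex_convexHull ℝ _) this k))
    (Ch (fun s => s ⊆ W ∧ Small 𝒰 s) (n + 1))
    (fun s hs p hp => Ch.mono (fun t ht => ⟨ht.trans (convexHull_min hs.1 hW), fun hne => by
      have hsne : s.Nonempty := by
        obtain ⟨x, hx⟩ := hne
        exact convexHull_nonempty_iff.1 ⟨x, ht hx⟩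
      obtain ⟨U, hU, h1⟩ := hs.2 hsne
      exact ⟨U, hU, ht.trans (convexHull_min h1 (hc U hU))⟩⟩) hp) hz h0
  refine ⟨(sd ^ k) y0 + y1, Submodule.add_mem _
    (Ch.mono (fun s hs => ⟨(subset_convexHull ℝ s).trans hs.1, hs.2⟩) hk) hy1, ?_⟩
  rw [map_add, bd_sd_pow, hb, hb1]
  simp only [LinearMap.add_apply, LinearMap.id_apply]
  rw [add_comm z, ← add_assoc, add_self, zero_add]

/-- homotopy invariance: two vertex maps whose images of each simplex span a convex set inside the
covered region give homologous fine cycles -/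
theorem homotopy_small {𝒰 : Set (Set E)} (ho : ∀ U ∈ 𝒰, IsOpen U) (hc : ∀ U ∈ 𝒰, Convex ℝ U)
    {S : Set X → Prop} (hS : Down S) (f g : X → E)
    (hfg : ∀ s, S s → convexHull ℝ (f '' s ∪ g '' s) ⊆ ⋃₀ 𝒰) {N : ℕ} {η : P X}
    (hη : η ∈ Ch S N) (h0 : bd η = 0) :
    ∀ᶠ k in atTop, ∃ y ∈ Ch (Small 𝒰) (N + 1),
      bd y = (sd ^ k) (rename f η) + (sd ^ k) (rename g η) := by
  classical
  let T : Finset X := η.vars
  let C : Set X → Set E := fun s => convexHull ℝ (f '' s ∪ g '' s)
  have hev : ∀ᶠ k in atTop, ∀ s ∈ T.powerset, S (s : Set X) → ∀ n ≤ N,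
      ∀ p ∈ Ch (fun t => t ⊆ C s) n, (sd ^ k) p ∈ Ch (fun t => t ⊆ C s ∧ Small 𝒰 t) n := by
    rw [Filter.eventually_all_finset]
    intro s _
    by_cases hs : S (s : Set X)
    · have hC : IsCompact (C s) :=
        ((s.finite_toSet.image f).union (s.finite_toSet.image g)).isCompact_convexHull ℝ
      filter_upwards [eventually_small ho hC (convex_convexHull ℝ _) (hfg s hs) N] with k hk _
      exact hk
    · exact Eventually.of_forall fun k h => absurd h hs
  filter_upwards [hev] with k hk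
  have hdown : Down (fun s : Set X => S s ∧ s ⊆ T) :=
    fun s t h hs => ⟨hS s t h hs.1, h.trans hs.2⟩
  have hη' : η ∈ Ch (fun s : Set X => S s ∧ s ⊆ T) N := by
    refine Ch.and hη fun m hm => ⟨fun x hx => ?_, (hη m hm).2⟩
    exact (mem_vars_iff_mem_support x).2 ⟨m, mem_support_iff.2 hm, hx⟩
  obtain ⟨y, hy, hb⟩ := carrier_cycle hdown (fun s n => Ch (fun t => t ⊆ C s ∧ Small 𝒰 t) n)
    (fun s t n _ hts p hp => Ch.mono (fun u hu => ⟨hu.1.trans (convexHull_mono
      (Set.union_subset_union (Set.image_mono hts) (Set.image_mono hts))), hu.2⟩) hp)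
    (fun s hs hne => acyc_small ho hc (convex_convexHull ℝ _)
      (((hne.image f).mono Set.subset_union_left).mono (subset_convexHull ℝ _)) (hfg s hs.1))
    ((sd ^ k : Module.End (ZMod 2) (P E)) ∘ₗ (rename f : P X →ₐ[ZMod 2] P E).toLinearMap +
      (sd ^ k : Module.End (ZMod 2) (P E)) ∘ₗ (rename g : P X →ₐ[ZMod 2] P E).toLinearMap)
    (by simp [add_self]) N (fun p => by simp [bd_sd_pow, bd_rename])
    (fun m hm hd => by
      simp only [LinearMap.add_apply, LinearMap.comp_apply, AlgHom.toLinearMap_apply]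
      have h1 := hk m.support (Finset.mem_powerset.2 (Finset.coe_subset.1 hm.2)) hm.1 _ hd
      have h2 := monomial_mem_Ch (S := fun t => t ⊆ (m.support : Set X)) subset_rfl
      refine Submodule.add_mem _ (h1 _ (Ch.rename f ?_ h2)) (h1 _ (Ch.rename g ?_ h2))
      · exact fun s hs => ((Set.image_mono hs).trans Set.subset_union_left).trans
          (subset_convexHull ℝ _)
      · exact fun s hs => ((Set.image_mono hs).trans Set.subset_union_right).trans
          (subset_convexHull ℝ _))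
    (Ch (Small 𝒰) (N + 1)) (fun s _ p hp => Ch.mono (fun t ht => ht.2) hp) hη' h0
  exact ⟨y, hy, by simpa using hb⟩

theorem Hemi.eventually_small {𝒰 : Set (Set E)} (ho : ∀ U ∈ 𝒰, IsOpen U) {W : Set E}
    (hcov : W ⊆ ⋃₀ 𝒰) {k : ℕ} {β : P E}
    (h : Hemi (fun s => convexHull ℝ s ⊆ W) (fun x => -x) k β) :
    ∀ᶠ j in atTop,
      Hemi (fun s => convexHull ℝ s ⊆ W ∧ Small 𝒰 s) (fun x => -x) k ((sd ^ j) β) := by
  induction k generalizing β with
  | zero =>
    filter_upwards [eventually_small' ho hcov h.1] with j hj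
    exact ⟨hj, by rw [bd_sd_pow, h.2, sd_pow_one]⟩
  | succ k ih =>
    obtain ⟨h1, β', h2, h3⟩ := h
    filter_upwards [eventually_small' ho hcov h1, ih h2] with j hj hj'
    exact ⟨hj, _, hj', by rw [bd_sd_pow, h3, map_add, rename_neg_sd_pow]⟩

end Crest.Agent.Mod2Chain
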